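import Vale.Agent.N154.Inv
import Vale.Agent.P154B7.Main

/-!
# P154: the capacity criterion for the process on a probability space
-/

namespace Vale.Agent.N154

open MeasureTheory ProbabilityTheory Filter Topology Vale.Agent.P154 Vale.Agent.P154B7

universe u

variable {q : ℕ} {Ω : Type u} [MeasurableSpace Ω] {lam : ℝ} {P : Measure Ω}
  {σ : List ℕ → Ω → Fin q} {κ : List ℕ → ℕ}

theorem mt_cut (i : Fin q) (κ : List ℕ → ℕ) (n : ℕ) : MT κ n [] (cut κ n []) :=
  ((match_iff κ (fun _ => i) n [] _ _).1 rfl).1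

theorem obs_iff (s : List ℕ → Fin q) (n : ℕ) (η : Spins q n (cut κ n [])) :
    obs κ s n [] = η ↔ MS s n [] (cut κ n []) η := by
  constructor
  · rintro rfl
    exact ((match_iff κ s n [] _ _).1 rfl).2
  · intro h
    exact eq_of_heq (Sigma.mk.inj ((match_iff κ s n [] _ η).2 ⟨mt_cut (s []) κ n, h⟩)).2

namespace IsSpins

theorem meas (h : IsSpins q lam P σ) : Measurable fun ω v => σ v ω :=
  measurable_pi_lambda _ h.measS

theorem probMap (h : IsSpins q lam P σ) : IsProbabilityMeasure (P.map fun ω v => σ v ω) :=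
  have := h.prob
  Measure.isProbabilityMeasure_map h.meas.aemeasurable

theorem spinLaw (h : IsSpins q lam P σ) : SpinLaw q lam (P.map fun ω v => σ v ω) := by
  intro D hD a
  rw [map_measureReal_apply h.meas (meas_cyl D a)]
  exact h.spins D hD a

omit [MeasurableSpace Ω] in
theorem fib_eq (n : ℕ) (η : Spins q n (cut κ n [])) :
    (fun ω => obs κ (fun v => σ v ω) n []) ⁻¹' {η} =
      (fun ω v => σ v ω) ⁻¹' {s | MS s n [] (cut κ n []) η} :=
  Set.ext fun _ => obs_iff _ n η

theorem measFib (h : IsSpins q lam P σ) (i : Fin q) (n : ℕ) (η : Spins q n (cut κ n [])) :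
    MeasurableSet ((fun ω => obs κ (fun v => σ v ω) n []) ⁻¹' {η}) := by
  rw [fib_eq]
  exact h.meas (meas_MS i _ _ _ _)

theorem probFib (h : IsSpins q lam P σ) (i : Fin q) (n : ℕ) (η : Spins q n (cut κ n [])) :
    P.real ((fun ω => obs κ (fun v => σ v ω) n []) ⁻¹' {η}) = evid q lam n (cut κ n []) η := by
  have := h.probMap
  rw [fib_eq, ← map_measureReal_apply h.meas (meas_MS i _ _ _ _), prob_all_MS h.spinLaw i]

theorem key (h : IsSpins q lam P σ) {n : ℕ} {A : Set ((List ℕ → ℕ) × (List ℕ → Fin q))}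
    (hinv : ∀ x y, SameObs q n x y → x ∈ A → y ∈ A) (η : Spins q n (cut κ n [])) (i : Fin q) :
    P.real ((fun ω => obs κ (fun v => σ v ω) n []) ⁻¹' {η} ∩ pair (fun v _ => κ v) σ ⁻¹' A) *
      post q lam n (cut κ n []) η i =
      P.real ((fun ω => obs κ (fun v => σ v ω) n []) ⁻¹' {η} ∩
        (pair (fun v _ => κ v) σ ⁻¹' A ∩ {ω | σ [] ω = i})) := by
  have := h.probMap
  rw [← Set.inter_assoc]
  rcases Set.eq_empty_or_nonempty ((fun ω => obs κ (fun v => σ v ω) n []) ⁻¹' {η} ∩
    pair (fun v _ => κ v) σ ⁻¹' A) with e | ⟨ω₀, h1, h2⟩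
  · simp [e]
  · have hsub : (fun ω => obs κ (fun v => σ v ω) n []) ⁻¹' {η} ⊆
        pair (fun v _ => κ v) σ ⁻¹' A := fun ω hω => hinv _ _ (same_of_match (mt_cut i κ n)
      ((obs_iff _ n η).1 h1) ((obs_iff _ n η).1 hω)) h2
    rw [Set.inter_eq_left.2 hsub, h.probFib i, evid_post h.spinLaw,
      ← prob_root_MS h.spinLaw, map_measureReal_apply h.meas
        (((det_coord [] i).meas i).inter (meas_MS i _ _ _ _)), fib_eq, Set.inter_comm]
    rfl

theorem condExp_eq (h : IsSpins q lam P σ) (κ : List ℕ → ℕ) (n : ℕ) (i : Fin q) :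
    (fun ω => post q lam n (cut κ n []) (obs κ (fun v => σ v ω) n []) i) =ᵐ[P]
      P⟦{ω | σ [] ω = i} | obsField (fun v _ => κ v) σ n⟧ := by
  have := h.prob
  have := h.probMap
  have hq : Measurable (Quot.mk (SameObs q n)) := fun _ hs => hs
  have hP : Measurable (pair (fun v _ => κ v) σ) := measurable_const.prodMk h.meas
  have hm : obsField (fun v _ => κ v) σ n ≤ ‹MeasurableSpace Ω› := (hq.comp hP).comap_le
  have hD := h.measFib (κ := κ) i n
  have hE : MeasurableSet {ω | σ [] ω = i} := h.measS [] (measurableSet_singleton i)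
  have hg : Integrable
      (fun ω => post q lam n (cut κ n []) (obs κ (fun v => σ v ω) n []) i) P :=
    Integrable.of_bound
      (meas_fib hD fun η => post q lam n (cut κ n []) η i).aestronglyMeasurable 1
      (Filter.Eventually.of_forall fun ω => post_bound h.spinLaw _ _ _ _)
  refine ae_eq_condExp_of_forall_setIntegral_eq hm ((integrable_const 1).indicator hE)
    (fun s _ _ => hg.integrableOn) ?_ ?_
  · rintro s ⟨C, -, rfl⟩ -
    have hinv : ∀ x y, SameObs q n x y → x ∈ Quot.mk (SameObs q n) ⁻¹' C →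
        y ∈ Quot.mk (SameObs q n) ⁻¹' C := fun x y hxy hx => by
      rw [Set.mem_preimage, ← Quot.sound hxy]
      exact hx
    change ∫ ω in pair (fun v _ => κ v) σ ⁻¹' (Quot.mk (SameObs q n) ⁻¹' C), _ ∂P =
      ∫ ω in pair (fun v _ => κ v) σ ⁻¹' (Quot.mk (SameObs q n) ⁻¹' C), _ ∂P
    have h1 := hasSum_fib
      (P.restrict (pair (fun v _ => κ v) σ ⁻¹' (Quot.mk (SameObs q n) ⁻¹' C))) hD
      (F := fun η => post q lam n (cut κ n []) η i) hg.integrableOn
    have h2 := hasSum_fib (P.restrict (pair (fun v _ => κ v) σ ⁻¹'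
      (Quot.mk (SameObs q n) ⁻¹' C) ∩ {ω | σ [] ω = i})) hD (F := fun _ => 1) (integrable_const 1)
    rw [setIntegral_indicator hE]
    refine h1.unique (h2.congr_fun fun d => ?_)
    rw [measureReal_restrict_apply (hD d), measureReal_restrict_apply (hD d), mul_one,
      h.key hinv d i]
  · have := countable_dat q n
    let G : Quot (SameObs q n) → ℝ := Quot.lift
      (fun x => post q lam n (dat n x).1 (dat n x).2 i) fun x y hxy => post_same lam hxy i
    have hG : Measurable G := fun s hs =>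
      meas_fib (meas_dat i n) (fun d => post q lam n d.1 d.2 i) hs
    have h3 : Measurable[obsField (fun v _ => κ v) σ n]
        fun ω => post q lam n (cut κ n []) (obs κ (fun v => σ v ω) n []) i :=
      hG.comp (comap_measurable _)
    exact h3.stronglyMeasurable.aestronglyMeasurable

theorem adv_eq (h : IsSpins q lam P σ) (κ : List ℕ → ℕ) (i₀ : Fin q) :
    adv P (fun v _ => κ v) σ = fun n => tadv q lam n (cut κ n []) := by
  funext n
  have := h.prob
  have hD := h.measFib (κ := κ) i₀ n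
  let F : Spins q n (cut κ n []) → ℝ :=
    fun η => (1 / 2) * ∑ i : Fin q, |post q lam n (cut κ n []) η i - 1 / q|
  have hF : Integrable (fun ω => F (obs κ (fun v => σ v ω) n [])) P :=
    Integrable.of_bound (meas_fib hD F).aestronglyMeasurable (∑ η, ‖F η‖)
      (Filter.Eventually.of_forall fun ω =>
        Finset.single_le_sum (fun η _ => norm_nonneg (F η)) (Finset.mem_univ _))
  have h2 : adv P (fun v _ => κ v) σ n = ∫ ω, F (obs κ (fun v => σ v ω) n []) ∂P := by
    refine integral_congr_ae ?_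
    filter_upwards [ae_all_iff.2 fun i => h.condExp_eq κ n i] with ω hω
    simp only [F, hω]
  rw [h2, (hasSum_fib P hD hF).unique (hasSum_fintype _), tadv]
  exact Finset.sum_congr rfl fun η _ => by rw [h.probFib i₀]

end IsSpins

theorem trunc_cut : ∀ (n : ℕ) (u : List ℕ), anti_trunc n (cut κ (n + 1) u) = cut κ n u
  | 0, _ => rfl
  | n + 1, u => congrArg (Sigma.mk (κ u)) (funext fun c => trunc_cut n ((c : ℕ) :: u))

theorem tadv_anti (hq : 2 ≤ q) (h0 : 0 ≤ lam) (h1 : lam ≤ 1) (κ : List ℕ → ℕ) :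
    Antitone fun n => tadv q lam n (cut κ n []) := by
  refine antitone_nat_of_succ_le fun n => ?_
  have hP := potts_nn (q := q) h0 h1
  have h := anti_G_le hP (potts_sum hq lam) n (cut κ (n + 1) [])
  rw [trunc_cut] at h
  exact (anti_G_eq (by omega) hP _ _).trans_le (h.trans_eq (anti_G_eq (by omega) hP _ _).symm)

/-- **The capacity criterion.** -/
theorem criterion (hq : q = 3 ∨ q = 4) (h0 : 0 < lam) (h1 : lam < 1) (κ : List ℕ → ℕ) :
    TreeCriterion.{u} κ q lam (PosCap κ lam (q - 2)) := by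
  have hq2 : 2 ≤ q := by omega
  have i₀ : Fin q := ⟨0, by omega⟩
  have hP := potts_nn (q := q) h0.le h1.le
  constructor
  · obtain ⟨Ω, _, P, N, σ, h⟩ := exists_broadcast (reg0 0) (reg1 0) i₀ hP
    exact ⟨Ω, _, P, σ, h.prob, h.measS, h.spins⟩
  intro Ω _ P σ h
  rw [h.adv_eq κ i₀]
  have hanti := tadv_anti hq2 h0.le h1.le κ
  have hnn := fun n => tadv_nonneg hP n (cut κ n [])
  have hbdd : BddBelow (Set.range fun n => tadv q lam n (cut κ n [])) :=
    ⟨0, by rintro _ ⟨n, rfl⟩; exact hnn n⟩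
  have hlim := tendsto_atTop_ciInf hanti hbdd
  have hiff : (0 < ⨅ n, tadv q lam n (cut κ n [])) ↔ PosCap κ lam (q - 2) :=
    ⟨fun hl => posCap_of_adv hq h0 h1 hl (ciInf_le hbdd), fun hc => by
      obtain ⟨l, hl, h2⟩ := adv_of_posCap hq h0 h1 hc
      exact hl.trans_le (le_ciInf h2)⟩
  rw [← hiff]
  refine ⟨⟨fun ⟨l, hl, h2⟩ => tendsto_nhds_unique h2 hlim ▸ hl, fun hl => ⟨_, hl, hlim⟩⟩,
    fun h2 => (tendsto_nhds_unique hlim h2).not_gt, fun h2 => ?_⟩
  rwa [le_antisymm (not_lt.1 h2) (le_ciInf hnn)] at hlim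

theorem flow_level {θ : List ℕ → ℝ} (h : IsUnitFlow κ θ) : ∀ n, ∑ v ∈ Lv κ n, θ v = 1
  | 0 => by simp [Lv, h.root]
  | n + 1 => by
    rw [sum_Lv, ← flow_level h n]
    exact Finset.sum_congr rfl fun u hu => (h.cons ⟨u, (mem_Lv.1 hu).1⟩).symm

theorem card_sph (k : ℕ → ℕ) : ∀ n,
    ∑ _v ∈ Lv (fun v => k v.length) n, (1 : ℝ) = ∏ j ∈ Finset.range n, (k j : ℝ)
  | 0 => by simp [Lv]
  | n + 1 => by
    rw [sum_Lv, Finset.prod_range_succ, ← card_sph k n, Finset.sum_mul]
    refine Finset.sum_congr rfl fun u hu => ?_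
    simp [(mem_Lv.1 hu).2]

/-- capacity of a spherically symmetric tree -/
theorem posCap_sph (h0 : 0 < lam) {k : ℕ → ℕ} (hk : ∀ n, 1 ≤ k n) (s : ℕ) :
    PosCap (fun v => k v.length) lam s ↔
      Summable fun n => (1 / (lam ^ (2 * n) * ∏ j ∈ Finset.range n, (k j : ℝ))) ^ s := by
  have hp : ∀ n, (0 : ℝ) < ∏ j ∈ Finset.range n, (k j : ℝ) := fun n =>
    Finset.prod_pos fun j _ => Nat.cast_pos.2 (hk j)
  have hc := card_sph k
  simp only [Finset.sum_const, nsmul_eq_mul, mul_one] at hc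
  rw [posCap_iff h0]
  constructor
  · rintro ⟨θ, hθ, E, hE⟩
    refine summable_of_sum_range_le (fun n => by have := hp n; positivity) (c := E) fun n => ?_
    refine le_trans (Finset.sum_le_sum fun j _ => ?_) (hE n)
    have h1 := pow_sum_div_card_le_sum_pow (s := Lv (fun v => k v.length) j)
      (fun v _ => hθ.nonneg v) s
    rw [flow_level hθ, hc, one_pow] at h1
    have e : ∑ v ∈ Lv (fun v => k v.length) j, en lam s θ v =
        (∑ v ∈ Lv (fun v => k v.length) j, θ v ^ (s + 1)) / (lam ^ (2 * j)) ^ s := by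
      rw [Finset.sum_div]
      refine Finset.sum_congr rfl fun v hv => ?_
      rw [en, (mem_Lv.1 hv).2, div_pow]
      ring
    rw [e, le_div_iff₀ (by positivity)]
    refine le_trans (le_of_eq ?_) h1
    have := hp j
    rw [div_pow, mul_pow, one_pow]
    field_simp
  · intro h
    refine ⟨fun v => 1 / ∏ j ∈ Finset.range v.length, (k j : ℝ),
      ⟨fun v => (one_div_pos.2 (hp _)).le, by simp, fun u => ?_⟩, _, fun n =>
        le_trans (le_of_eq ?_) (h.sum_le_tsum (Finset.range n) fun n _ => by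
          have := hp n; positivity)⟩
    · have h1 : (0 : ℝ) < k u.1.length := Nat.cast_pos.2 (hk _)
      have := hp u.1.length
      simp only [List.length_cons, Finset.prod_range_succ, Finset.sum_const, Finset.card_range,
        nsmul_eq_mul]
      field_simp
    · refine Finset.sum_congr rfl fun j _ => ?_
      rw [Finset.sum_congr rfl (g := fun _ => 1 / (∏ i ∈ Finset.range j, (k i : ℝ)) *
        (1 / (lam ^ (2 * j) * ∏ i ∈ Finset.range j, (k i : ℝ))) ^ s) fun v hv => by
          rw [en, (mem_Lv.1 hv).2, div_div, mul_comm (lam ^ (2 * j))],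
        Finset.sum_const, nsmul_eq_mul, hc, ← mul_assoc, mul_one_div_cancel (hp j).ne', one_mul]

end Vale.Agent.N154
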