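import Vale.Agent.P154B7.Defs

/-!
# P154: the broadcast process on a fixed locally finite tree, flows and their energy
-/

namespace Vale.Agent.N154

open MeasureTheory ProbabilityTheory Filter Topology Vale.Agent.P154 Vale.Agent.P154B7

universe u

/-- The spins of the broadcast process, given on all words: the root spin is uniform and each
edge independently passes the spin of the parent to the child through the Potts channel. -/
structure IsSpins (q : ℕ) (lam : ℝ) {Ω : Type u} [MeasurableSpace Ω] (P : Measure Ω)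
    (σ : List ℕ → Ω → Fin q) : Prop where
  prob : IsProbabilityMeasure P
  measS : ∀ v, Measurable (σ v)
  spins : ∀ D : Finset (List ℕ), (∀ v ∈ D, v.tail ∈ D) → ∀ a : List ℕ → Fin q,
    P.real {ω | ∀ v ∈ D, σ v ω = a v} =
      ∏ v ∈ D, if v = [] then (1 / q : ℝ) else potts q lam (a v.tail) (a v)

/-- A unit flow from the root to infinity on the tree with child numbers `κ`. -/
structure IsUnitFlow (κ : List ℕ → ℕ) (θ : List ℕ → ℝ) : Prop where
  nonneg : ∀ v, 0 ≤ θ v
  root : θ [] = 1
  cons : ∀ u : Vert κ, θ u.1 = ∑ c ∈ Finset.range (κ u.1), θ (c :: u.1)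

/-- Some unit flow has finite energy `∑_v θ(v) (θ(v) lam^(-2|v|))^s`: the tree with resistances
`lam^(-2|v|)` has positive `L^(s+1)` capacity. -/
def PosCap (κ : List ℕ → ℕ) (lam : ℝ) (s : ℕ) : Prop :=
  ∃ θ, IsUnitFlow κ θ ∧
    Summable fun v : Vert κ => θ v.1 * (θ v.1 / lam ^ (2 * v.1.length)) ^ s

/-- The process on the fixed tree `κ` exists, and in every realization reconstruction holds iff
`p`, nonreconstruction iff not `p`. -/
def TreeCriterion (κ : List ℕ → ℕ) (q : ℕ) (lam : ℝ) (p : Prop) : Prop :=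
  (∃ (Ω : Type) (_ : MeasurableSpace Ω) (P : Measure Ω) (σ : List ℕ → Ω → Fin q),
    IsSpins q lam P σ) ∧
  ∀ (Ω : Type u) [MeasurableSpace Ω] (P : Measure Ω) (σ : List ℕ → Ω → Fin q),
    IsSpins q lam P σ →
    ((∃ l : ℝ, 0 < l ∧ Tendsto (adv P (fun v _ => κ v) σ) atTop (𝓝 l)) ↔ p) ∧
    (Tendsto (adv P (fun v _ => κ v) σ) atTop (𝓝 0) ↔ ¬ p)

end Vale.Agent.N154
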