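import Vale.Agent.N154.Low

/-!
# P154: a flow of finite energy gives reconstruction
-/

namespace Vale.Agent.N154

open Vale.Agent.P154 Vale.Agent.P154B7

variable {κ : List ℕ → ℕ} {lam C₀ C₂ ε : ℝ} {s a : List ℕ → ℝ} {x t : ℕ → List ℕ → ℝ}

/-- recursive form of the energy below a vertex -/
noncomputable def enr (κ : List ℕ → ℕ) (lam : ℝ) (e : List ℕ → ℝ) : ℕ → List ℕ → ℝ
  | 0, u => e u
  | n + 1, u => e u + lam ^ 2 * ∑ c ∈ Finset.range (κ u), enr κ lam e n (c :: u)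

theorem enr_sum (e : List ℕ → ℝ) : ∀ m j : ℕ, ∑ u ∈ Lv κ j, lam ^ (2 * j) * enr κ lam e m u =
    ∑ i ∈ Finset.range (m + 1), ∑ v ∈ Lv κ (j + i), lam ^ (2 * (j + i)) * e v
  | 0, j => by simp [enr]
  | m + 1, j => by
    rw [Finset.sum_range_succ']
    simp only [← add_assoc, add_right_comm j _ 1]
    rw [← enr_sum e m (j + 1), sum_Lv, add_zero, ← Finset.sum_add_distrib]
    refine Finset.sum_congr rfl fun u _ => ?_
    rw [enr, ← Finset.mul_sum]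
    ring

theorem x_le (h : Rec κ lam C₀ C₂ s x t) (hs : ∀ v, s v ^ 2 ≤ ε * a v)
    (ha : ∀ u, InT κ u → a u = lam ^ 2 * ∑ c ∈ Finset.range (κ u), a (c :: u)) :
    ∀ n u, InT κ u → x n u ≤ ε * a u ∧
      lam ^ 2 * ∑ c ∈ Finset.range (κ u), x n (c :: u) ≤ ε * a u := by
  have key : ∀ n, (∀ u, InT κ u → x n u ≤ ε * a u) → ∀ u, InT κ u →
      lam ^ 2 * ∑ c ∈ Finset.range (κ u), x n (c :: u) ≤ ε * a u := fun n hn u hu => by
    rw [ha u hu, mul_left_comm, Finset.mul_sum _ _ ε]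
    exact mul_le_mul_of_nonneg_left (Finset.sum_le_sum fun c hc =>
      hn _ (inT_cons.2 ⟨hu, Finset.mem_range.1 hc⟩)) (sq_nonneg _)
  have h2 : ∀ n u, InT κ u → x n u ≤ ε * a u := by
    intro n
    induction n with
    | zero => exact fun u _ => (h.xl u).trans_le (hs u)
    | succ n ih => exact fun u hu => (h.step n u _ _ rfl rfl).1.trans (key n ih u hu)
  exact fun n u hu => ⟨h2 n u hu, key n (h2 n) u hu⟩

theorem inv3 (h : Rec κ lam C₀ 0 s x t) (ht : ∀ n u, t n u = 0) (hC : 0 ≤ C₀)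
    (hs : ∀ v, s v ^ 2 ≤ ε * a v) (hs2 : ∀ v, ε * a v - s v ^ 2 ≤ 2 * (ε * a v) ^ 2)
    (ha : ∀ u, InT κ u → a u = lam ^ 2 * ∑ c ∈ Finset.range (κ u), a (c :: u)) :
    ∀ n u, InT κ u →
      ε * a u - x n u ≤ (C₀ + 2) * ε ^ 2 * enr κ lam (fun v => a v ^ 2) n u := by
  intro n
  induction n with
  | zero =>
    intro u _
    rw [h.xl, enr]
    nlinarith [hs2 u, mul_nonneg hC (sq_nonneg (ε * a u))]
  | succ n ih =>
    intro u hu
    have h1 := (h.step n u _ _ rfl rfl).2.2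
    have h2 := (x_le h hs ha n u hu).2
    have h3 := mul_le_mul_of_nonneg_left (Finset.sum_le_sum fun c hc =>
      ih _ (inT_cons.2 ⟨hu, Finset.mem_range.1 hc⟩)) (sq_nonneg lam)
    have h4 : 0 ≤ lam ^ 2 * ∑ c ∈ Finset.range (κ u), x n (c :: u) :=
      mul_nonneg (sq_nonneg _) (Finset.sum_nonneg fun _ _ => h.x0 _ _)
    simp only [ht, Finset.sum_const_zero, mul_zero, zero_mul, add_zero] at h1
    rw [Finset.sum_sub_distrib, ← Finset.mul_sum, ← Finset.mul_sum, mul_sub, mul_left_comm,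
      ← ha u hu] at h3
    rw [enr]
    have h5 := mul_le_mul_of_nonneg_left (pow_le_pow_left₀ h4 h2 2) hC
    nlinarith [sq_nonneg (ε * a u)]

theorem leaf4 {η K A S T Q : ℝ} (h1 : lam < 1) (hη : 0 < η) (hη1 : η ≤ 1)
    (k3 : 18 ≤ K * (1 - lam)) (k5 : 9 ≤ K) (b0 : 0 ≤ A) (b1 : 0 ≤ S) (b2 : S ^ 2 ≤ η ^ 2 * A)
    (b3 : η ^ 2 * A - S ^ 2 ≤ 4 * (η ^ 2 * A) ^ 3) (b4 : T ≤ 9 * S ^ 3) (b5 : 0 ≤ T)
    (hQ : 0 ≤ Q) : η ^ 2 * A - S ^ 2 + 2 * η ^ 2 * lam * Q * T ≤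
      K * η ^ 5 * (A ^ 3 + (1 - lam) / 2 * A * Q ^ 2 + A) := by
  have c1 : S ^ 3 ≤ S * (η ^ 2 * A) := by
    rw [pow_succ']
    exact mul_le_mul_of_nonneg_left b2 b1
  have c2 : η * (Q * S) ≤ η ^ 2 * (Q ^ 2 / 2 + (1 + A ^ 2) / 4) := by
    have c3 : η ^ 2 * A ≤ η ^ 2 * ((1 + A ^ 2) / 2) :=
      mul_le_mul_of_nonneg_left (by nlinarith only [sq_nonneg (A - 1)]) (sq_nonneg _)
    nlinarith only [sq_nonneg (η * Q - S), c3, b2]
  have c4 : Q * S ≤ η * (Q ^ 2 / 2 + (1 + A ^ 2) / 4) :=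
    le_of_mul_le_mul_left (c2.trans_eq (by ring)) hη
  have c5 : 2 * η ^ 2 * lam * Q * T ≤ 18 * η ^ 5 * A * (Q ^ 2 / 2 + (1 + A ^ 2) / 4) :=
    calc 2 * η ^ 2 * lam * Q * T ≤ 2 * η ^ 2 * 1 * Q * (9 * (S * (η ^ 2 * A))) := by
          gcongr
          linarith only [b4, c1]
      _ = 18 * η ^ 4 * A * (Q * S) := by ring
      _ ≤ 18 * η ^ 4 * A * (η * (Q ^ 2 / 2 + (1 + A ^ 2) / 4)) := by gcongr
      _ = _ := by ring
  have c6 : 4 * (η ^ 2 * A) ^ 3 ≤ 4 * (η ^ 5 * A ^ 3) := by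
    have : η ^ 6 ≤ η ^ 5 := pow_le_pow_of_le_one hη.le hη1 (by norm_num)
    rw [mul_pow, ← pow_mul]
    gcongr
  have c7 : 9 * (η ^ 5 * A ^ 3) ≤ K * (η ^ 5 * A ^ 3) := by gcongr
  have c8 : 9 * (η ^ 5 * A) ≤ K * (η ^ 5 * A) := by gcongr
  have c9 : 18 * (η ^ 5 * A * Q ^ 2) ≤ K * (1 - lam) * (η ^ 5 * A * Q ^ 2) := by gcongr
  have d1 : 0 ≤ η ^ 5 * A ^ 3 := by positivity
  have d2 : 0 ≤ η ^ 5 * A := by positivity
  linarith only [b3, c5, c6, c7, c8, c9, d1, d2]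

theorem step4 {η K A Q Y T E x' t' : ℝ} (hC : 0 ≤ C₂) (h0 : 0 < lam) (h1 : lam < 1) (hη : 0 < η)
    (hη1 : η ≤ 1) (k4 : 6 * C₂ ≤ K * (1 - lam)) (k5 : 9 ≤ K) (b0 : 0 ≤ A) (hQ : 0 ≤ Q)
    (h4 : 0 ≤ Y) (h5 : 0 ≤ T) (h2 : Y ≤ η ^ 2 * A) (r2 : t' ≤ T + C₂ * Y ^ 2)
    (r3 : Y ≤ x' + 0 * Y ^ 2 + 2 * (Y * (T + C₂ * Y ^ 2)))
    (h3 : η ^ 2 * A - Y + 2 * η ^ 2 * (A + lam * Q) * T ≤
      K * η ^ 5 * (E + (1 - lam) / 2 * A * (A + lam * Q) ^ 2 + A)) :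
    η ^ 2 * A - x' + 2 * η ^ 2 * lam * Q * t' ≤
      K * η ^ 5 * (A ^ 3 + E + (1 - lam) / 2 * A * Q ^ 2 + A) := by
  have hl : 0 < 1 - lam := by linarith only [h1]
  have k0 : 0 ≤ K := by linarith only [k5]
  have y2 : C₂ * Y ^ 2 ≤ C₂ * (η ^ 2 * A) ^ 2 := by gcongr
  have p1 : Y * (T + C₂ * Y ^ 2) ≤ η ^ 2 * A * (T + C₂ * (η ^ 2 * A) ^ 2) := by gcongr
  have p2 : 2 * η ^ 2 * lam * Q * t' ≤ 2 * η ^ 2 * lam * Q * (T + C₂ * (η ^ 2 * A) ^ 2) :=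
    mul_le_mul_of_nonneg_left (by linarith only [r2, y2]) (by positivity)
  have p3 : (1 - lam) * (A + lam * Q) ^ 2 ≤ A ^ 2 + (1 - lam) * lam * Q ^ 2 := by
    linarith only [mul_nonneg h0.le (sq_nonneg (A - (1 - lam) * Q))]
  have p4 : 2 * (1 - lam) * ((A + lam * Q) * A) ≤ 3 * (A ^ 2 + (1 - lam) ^ 2 * Q ^ 2) := by
    have q1 : lam * ((1 - lam) * Q * A) ≤ 1 * ((1 - lam) * Q * A) := by gcongr
    linarith only [q1, sq_nonneg (A - (1 - lam) * Q), mul_nonneg h0.le (sq_nonneg A),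
      sq_nonneg ((1 - lam) * Q)]
  have p5 : 2 * C₂ * η * ((A + lam * Q) * A) ≤ K / 2 * (A ^ 2 + (1 - lam) ^ 2 * Q ^ 2) := by
    refine le_of_mul_le_mul_left ?_ hl
    calc (1 - lam) * (2 * C₂ * η * ((A + lam * Q) * A))
        = C₂ * η * (2 * (1 - lam) * ((A + lam * Q) * A)) := by ring
      _ ≤ C₂ * 1 * (3 * (A ^ 2 + (1 - lam) ^ 2 * Q ^ 2)) := by gcongr
      _ = 6 * C₂ * ((A ^ 2 + (1 - lam) ^ 2 * Q ^ 2) / 2) := by ring
      _ ≤ K * (1 - lam) * ((A ^ 2 + (1 - lam) ^ 2 * Q ^ 2) / 2) := by gcongr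
      _ = _ := by ring
  have p6 := mul_le_mul_of_nonneg_left p5 (by positivity : 0 ≤ η ^ 5 * A)
  have p7 := mul_le_mul_of_nonneg_left p3 (by positivity : 0 ≤ K * η ^ 5 * A / 2)
  linarith only [p1, p2, p6, p7, r3, h3]

theorem inv4 {η K : ℝ} (h : Rec κ lam 0 C₂ s x t) (hC : 0 ≤ C₂) (h0 : 0 < lam) (h1 : lam < 1)
    (hη : 0 < η) (hη1 : η ≤ 1) (hK : K = 9 + 18 / (1 - lam) + 6 * C₂ / (1 - lam))
    (a0 : ∀ v, 0 ≤ a v) (s0 : ∀ v, 0 ≤ s v)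
    (hs : ∀ v, s v ^ 2 ≤ η ^ 2 * a v) (hs2 : ∀ v, η ^ 2 * a v - s v ^ 2 ≤ 4 * (η ^ 2 * a v) ^ 3)
    (ha : ∀ u, InT κ u → a u = lam ^ 2 * ∑ c ∈ Finset.range (κ u), a (c :: u)) :
    ∀ n u, InT κ u → ∀ Q, 0 ≤ Q → η ^ 2 * a u - x n u + 2 * η ^ 2 * lam * Q * t n u ≤
      K * η ^ 5 * (enr κ lam (fun v => a v ^ 3) n u + (1 - lam) / 2 * a u * Q ^ 2 + a u) := by
  have hl : 0 < 1 - lam := by linarith
  have k1 : 0 ≤ 18 / (1 - lam) := by positivity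
  have k2 : 0 ≤ 6 * C₂ / (1 - lam) := by positivity
  have k3 : 18 ≤ K * (1 - lam) := by
    rw [hK, add_mul, add_mul, div_mul_cancel₀ _ hl.ne', div_mul_cancel₀ _ hl.ne']
    linarith
  have k4 : 6 * C₂ ≤ K * (1 - lam) := by
    rw [hK, add_mul, add_mul, div_mul_cancel₀ _ hl.ne', div_mul_cancel₀ _ hl.ne']
    linarith
  have k5 : 9 ≤ K := by linarith
  intro n
  induction n with
  | zero =>
    intro u _ Q hQ
    rw [h.xl, enr]
    exact leaf4 h1 hη hη1 k3 k5 (a0 u) (s0 u) (hs u) (hs2 u) (h.tl u) (h.t0 0 u) hQ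
  | succ n ih =>
    intro u hu Q hQ
    obtain ⟨-, r2, r3⟩ := h.step n u _ _ rfl rfl
    have hA : 0 ≤ a u + lam * Q := by have := a0 u; positivity
    have h3 := mul_le_mul_of_nonneg_left (Finset.sum_le_sum fun c hc =>
      ih _ (inT_cons.2 ⟨hu, Finset.mem_range.1 hc⟩) _ hA) (sq_nonneg lam)
    have h5 : 0 ≤ ∑ c ∈ Finset.range (κ u), t n (c :: u) := Finset.sum_nonneg fun _ _ => h.t0 _ _
    simp only [Finset.sum_add_distrib, Finset.sum_sub_distrib, ← Finset.mul_sum,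
      ← Finset.sum_mul] at h3
    rw [enr]
    refine step4 hC h0 h1 hη hη1 k4 k5 (a0 u) hQ
      (mul_nonneg (sq_nonneg _) (Finset.sum_nonneg fun _ _ => h.x0 _ _)) (by positivity)
      (x_le h hs ha n u hu).2 r2 r3 ?_
    have h6 := ha u hu
    refine le_of_eq_of_le ?_ (h3.trans_eq ?_)
    · linear_combination η ^ 2 * h6
    · linear_combination -(K * η ^ 5 * ((1 - lam) / 2 * (a u + lam * Q) ^ 2 + 1)) * h6

theorem sqrt_facts {z : ℝ} (hz : 0 ≤ z) : 0 ≤ √(min (1 / 2) z) ∧ √(min (1 / 2) z) < 1 ∧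
    √(min (1 / 2) z) ^ 2 ≤ z ∧ z - √(min (1 / 2) z) ^ 2 ≤ 2 * z ^ 2 ∧
    z - √(min (1 / 2) z) ^ 2 ≤ 4 * z ^ 3 := by
  rw [Real.sq_sqrt (le_min (by norm_num) hz), Real.sqrt_lt' one_pos]
  refine ⟨Real.sqrt_nonneg _, (min_le_left _ _).trans_lt (by norm_num), min_le_right _ _, ?_⟩
  rcases le_total (1 / 2) z with h | h
  · rw [min_eq_left h]
    constructor <;> nlinarith [mul_nonneg hz (sub_nonneg.2 h), sq_nonneg (z - 1 / 2)]
  · rw [min_eq_right h, sub_self]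
    constructor <;> positivity

/-- **Positive capacity gives reconstruction.** -/
theorem adv_of_posCap {q : ℕ} (hq : q = 3 ∨ q = 4) (h0 : 0 < lam) (h1 : lam < 1)
    (h : PosCap κ lam (q - 2)) : ∃ l, 0 < l ∧ ∀ n, l ≤ tadv q lam n (cut κ n []) := by
  obtain ⟨θ, hθ, E, hE⟩ := (posCap_iff h0 _).1 h
  set a : List ℕ → ℝ := fun v => θ v / lam ^ (2 * v.length) with ha'
  have a0 : ∀ v, 0 ≤ a v := fun v => div_nonneg (hθ.nonneg v) (by positivity)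
  have a1 : a [] = 1 := by simp [ha', hθ.root]
  have ha : ∀ u, InT κ u → a u = lam ^ 2 * ∑ c ∈ Finset.range (κ u), a (c :: u) := fun u hu => by
    simp only [ha', List.length_cons, ← Finset.sum_div]
    rw [← hθ.cons ⟨u, hu⟩]
    field_simp
    ring
  have hen : ∀ n, enr κ lam (fun v => a v ^ (q - 2 + 1)) n [] ≤ E := fun n => by
    have h2 := enr_sum (κ := κ) (lam := lam) (fun v => a v ^ (q - 2 + 1)) n 0
    simp only [Lv, Finset.sum_singleton, mul_zero, pow_zero, one_mul, zero_add] at h2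
    rw [h2]
    refine le_trans (le_of_eq ?_) (hE (n + 1))
    refine Finset.sum_congr rfl fun i _ => Finset.sum_congr rfl fun v hv => ?_
    rw [en, pow_succ, ← (mem_Lv.1 hv).2, ha']
    field_simp
  have E0 : 0 ≤ E := by simpa using hE 0
  rcases hq with rfl | rfl
  · obtain ⟨ε, hε⟩ : ∃ ε : ℝ, ε = 1 / (14 * (E + 1)) := ⟨_, rfl⟩
    have e0 : 0 < ε := by rw [hε]; positivity
    have hs := fun v => sqrt_facts (mul_nonneg e0.le (a0 v))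
    have hs' := fun v => And.intro (hs v).1 (hs v).2.1
    refine ⟨ε / 8, by positivity, fun n => ?_⟩
    have h2 := inv3 (rec_nl Q3.isCert3 (isLow3 _) (by norm_num) h0.le h1 hs')
      (fun _ _ => by simp [tm]) (by norm_num) (fun v => (hs v).2.2.1) (fun v => (hs v).2.2.2.1)
      ha n [] inT_nil
    have h3 := val_nl_le (κ := κ) Q3.isCert3 (by norm_num) h0.le h1 hs' n []
    have h4 := mul_le_mul_of_nonneg_left (hen n) (by positivity : 0 ≤ (5 + 2) * ε ^ 2)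
    have h5 : ε * (14 * (E + 1)) = 1 := by rw [hε]; field_simp
    rw [a1] at h2
    have h6 : (5 + 2) * ε ^ 2 * E ≤ ε / 2 := by nlinarith
    linarith
  · have hl : 0 < 1 - lam := by linarith
    have hL := isLow4 hl
    have c2 := hL.c2
    obtain ⟨K, hK⟩ : ∃ K : ℝ, K = 9 + 18 / (1 - lam) +
      6 * (9 * (400 + 36864 / (1 - lam) ^ 2)) / (1 - lam) := ⟨_, rfl⟩
    have k0 : 9 ≤ K := by
      rw [hK, add_assoc]
      exact le_add_of_nonneg_right (by positivity)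
    obtain ⟨η, hη⟩ : ∃ η : ℝ, η = 1 / (2 * K * (E + 1)) := ⟨_, rfl⟩
    have e0 : 0 < η := by rw [hη]; positivity
    have h5 : η * (2 * K * (E + 1)) = 1 := by rw [hη]; field_simp
    have e1 : η ≤ 1 := by nlinarith [mul_nonneg (mul_nonneg e0.le (by linarith : 0 ≤ K)) E0]
    have hs := fun v => sqrt_facts (mul_nonneg (sq_nonneg η) (a0 v))
    have hs' := fun v => And.intro (hs v).1 (hs v).2.1
    refine ⟨η ^ 2 / 8, by positivity, fun n => ?_⟩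
    have h2 := inv4 (rec_nl Q4.isCert4 hL (by norm_num) h0.le h1 hs') c2 h0 h1 e0 e1 hK a0
      (fun v => (hs v).1) (fun v => (hs v).2.2.1) (fun v => (hs v).2.2.2.2) ha n [] inT_nil 0 le_rfl
    have h3 := val_nl_le (κ := κ) Q4.isCert4 (by norm_num) h0.le h1 hs' n []
    have h4 := mul_le_mul_of_nonneg_left (hen n) (by positivity : 0 ≤ K * η ^ 5)
    rw [a1] at h2
    have h6 : η ^ 5 ≤ η ^ 3 := pow_le_pow_of_le_one e0.le e1 (by norm_num)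
    have h7 : K * (E + 1) * η ^ 5 ≤ K * (E + 1) * η ^ 3 := by gcongr
    have h8 : K * (E + 1) * η ^ 3 = η ^ 2 / 2 := by linear_combination η ^ 2 / 2 * h5
    linarith

end Vale.Agent.N154
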