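import Vale.Agent.N154.Defs
import Vale.Agent.P154B7.Prob

/-!
# P154: levels of a tree, energy of flows, flows from concave recursions
-/

namespace Vale.Agent.N154

open Filter Topology Vale.Agent.P154 Vale.Agent.P154B7

variable {κ : List ℕ → ℕ}

/-- the vertices at level `n` -/
def Lv (κ : List ℕ → ℕ) : ℕ → Finset (List ℕ)
  | 0 => {[]}
  | n + 1 => (Lv κ n).biUnion fun u => (Finset.range (κ u)).image (· :: u)

theorem inT_nil : InT κ [] := fun _ _ h => absurd h (by simp)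

theorem mem_Lv : ∀ {n : ℕ} {v : List ℕ}, v ∈ Lv κ n ↔ InT κ v ∧ v.length = n
  | 0, v => by
    rw [Lv, Finset.mem_singleton, List.length_eq_zero_iff]
    exact ⟨fun h => ⟨h ▸ inT_nil, h⟩, fun h => h.2⟩
  | n + 1, v => by
    simp only [Lv, Finset.mem_biUnion, Finset.mem_image, Finset.mem_range]
    constructor
    · rintro ⟨u, hu, c, hc, rfl⟩
      obtain ⟨h1, h2⟩ := mem_Lv.1 hu
      exact ⟨inT_cons.2 ⟨h1, hc⟩, by rw [List.length_cons, h2]⟩
    · rintro ⟨h1, h2⟩
      cases v with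
      | nil => simp at h2
      | cons c u =>
        obtain ⟨h3, h4⟩ := inT_cons.1 h1
        exact ⟨u, mem_Lv.2 ⟨h3, by simpa using h2⟩, c, h4, rfl⟩

theorem sum_Lv (n : ℕ) (f : List ℕ → ℝ) :
    ∑ v ∈ Lv κ (n + 1), f v = ∑ u ∈ Lv κ n, ∑ c ∈ Finset.range (κ u), f (c :: u) := by
  rw [Lv, Finset.sum_biUnion]
  · refine Finset.sum_congr rfl fun u _ => Finset.sum_image fun c _ c' _ h => ?_
    exact (List.cons.inj h).1
  · intro u _ u' _ h
    refine Finset.disjoint_left.2 fun v h1 h2 => h ?_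
    obtain ⟨c, -, rfl⟩ := Finset.mem_image.1 h1
    obtain ⟨c', -, h3⟩ := Finset.mem_image.1 h2
    exact (List.cons.inj h3).2.symm

theorem sum_levels (n : ℕ) (f : List ℕ → ℝ) :
    ∑ v ∈ (Finset.range n).biUnion (Lv κ), f v = ∑ j ∈ Finset.range n, ∑ v ∈ Lv κ j, f v := by
  refine Finset.sum_biUnion fun j _ j' _ h => ?_
  exact Finset.disjoint_left.2 fun v h1 h2 => h ((mem_Lv.1 h1).2.symm.trans (mem_Lv.1 h2).2)

theorem summable_iff {f : List ℕ → ℝ} (hf : ∀ v, 0 ≤ f v) :
    (Summable fun v : Vert κ => f v.1) ↔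
      ∃ E, ∀ n, ∑ j ∈ Finset.range n, ∑ v ∈ Lv κ j, f v ≤ E := by
  classical
  constructor
  · intro h
    refine ⟨∑' v : Vert κ, f v.1, fun n => ?_⟩
    rw [← sum_levels]
    have h1 := Finset.sum_subtype_of_mem (s := (Finset.range n).biUnion (Lv κ)) f
      (p := fun v => ∀ c u, c :: u <:+ v → c < κ u) fun v hv => by
        obtain ⟨j, -, hj⟩ := Finset.mem_biUnion.1 hv
        exact (mem_Lv.1 hj).1
    rw [← h1]
    exact Summable.sum_le_tsum (ι := Vert κ) (f := fun v : Vert κ => f v.1) _ (fun v _ => hf _) h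
  · rintro ⟨E, hE⟩
    refine summable_of_sum_le (fun v => hf _) (c := E) fun F => ?_
    refine le_trans ?_ (hE (F.sup (fun v => v.1.length) + 1))
    rw [← sum_levels, ← Finset.sum_image (s := F) (g := fun v : Vert κ => v.1) (f := f)
      fun _ _ _ _ h => Subtype.ext h]
    refine Finset.sum_le_sum_of_subset_of_nonneg (fun v hv => ?_) fun v _ _ => hf v
    obtain ⟨w, hw, rfl⟩ := Finset.mem_image.1 hv
    refine Finset.mem_biUnion.2 ⟨w.1.length, Finset.mem_range.2 (Nat.lt_succ_of_le ?_),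
      mem_Lv.2 ⟨w.2, rfl⟩⟩
    exact Finset.le_sup (f := fun v : Vert κ => v.1.length) hw

/-- energy of the vertex `v` -/
noncomputable def en (lam : ℝ) (s : ℕ) (θ : List ℕ → ℝ) (v : List ℕ) : ℝ :=
  θ v * (θ v / lam ^ (2 * v.length)) ^ s

theorem en_nonneg {lam : ℝ} (h : 0 < lam) (s : ℕ) {θ : List ℕ → ℝ} (h0 : ∀ v, 0 ≤ θ v)
    (v : List ℕ) : 0 ≤ en lam s θ v := by
  have := h0 v
  unfold en
  positivity

theorem posCap_iff {lam : ℝ} (h : 0 < lam) (s : ℕ) : PosCap κ lam s ↔ ∃ θ, IsUnitFlow κ θ ∧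
    ∃ E, ∀ n, ∑ j ∈ Finset.range n, ∑ v ∈ Lv κ j, en lam s θ v ≤ E :=
  exists_congr fun _ => and_congr_right fun h1 => summable_iff (en_nonneg h s h1.nonneg)

section Approx

variable (κ) (w : List ℕ → ℝ) (g : List ℕ → ℝ) (r₀ : ℝ)

/-- the flow which splits proportionally to `w` -/
noncomputable def fl : List ℕ → ℝ
  | [] => 1
  | c :: u => if c < κ u then fl u * w (c :: u) / ∑ c' ∈ Finset.range (κ u), w (c' :: u) else 0

/-- the running product -/
noncomputable def rr : List ℕ → ℝ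
  | [] => r₀
  | c :: u => rr u * (1 - g (c :: u))

variable {κ w g r₀}

theorem fl_bd (hw : ∀ v, 0 ≤ w v) : ∀ v, 0 ≤ fl κ w v ∧ fl κ w v ≤ 1
  | [] => ⟨zero_le_one, le_rfl⟩
  | c :: u => by
    obtain ⟨h1, h2⟩ := fl_bd hw u
    rw [fl]
    split_ifs with h
    · have h3 : w (c :: u) ≤ ∑ c' ∈ Finset.range (κ u), w (c' :: u) :=
        Finset.single_le_sum (f := fun c' => w (c' :: u)) (fun _ _ => hw _) (Finset.mem_range.2 h)
      have h4 := hw (c :: u)
      refine ⟨div_nonneg (mul_nonneg h1 h4) (h4.trans h3), div_le_one_of_le₀ ?_ (h4.trans h3)⟩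
      nlinarith
    · exact ⟨le_rfl, zero_le_one⟩

theorem rr_bd (h0 : 0 ≤ r₀) (hg : ∀ v, 0 ≤ g v ∧ g v ≤ 1) :
    ∀ v, 0 ≤ rr g r₀ v ∧ rr g r₀ v ≤ r₀
  | [] => ⟨h0, le_rfl⟩
  | c :: u => by
    obtain ⟨h1, h2⟩ := rr_bd h0 hg u
    obtain ⟨h3, h4⟩ := hg (c :: u)
    rw [rr]
    exact ⟨mul_nonneg h1 (by linarith), by nlinarith⟩

end Approx

/-- approximate flows up to level `L` with bounded energy -/
theorem approx {lam k a : ℝ} (hl : 0 < lam) (hk : 0 < k) (ha : 0 < a) (s L : ℕ)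
    (Y : List ℕ → ℝ) (hY : ∀ v, 0 ≤ Y v ∧ k * Y v ^ (s + 1) ≤ 1) (h0 : a ≤ Y [])
    (hrec : ∀ u : List ℕ, u.length < L → Y u ≤
      lam ^ 2 * ∑ c ∈ Finset.range (κ u), Y (c :: u) * (1 - k * Y (c :: u) ^ (s + 1))) :
    ∃ θ : List ℕ → ℝ, (∀ v, 0 ≤ θ v ∧ θ v ≤ 1) ∧ θ [] = 1 ∧
      (∀ u : List ℕ, u.length < L → θ u = ∑ c ∈ Finset.range (κ u), θ (c :: u)) ∧
      ∀ n ≤ L, ∑ j ∈ Finset.range (n + 1), ∑ v ∈ Lv κ j, en lam (s + 1) θ v ≤
        1 + (1 / a) ^ (s + 1) / k := by
  set g : List ℕ → ℝ := fun v => k * Y v ^ (s + 1) with hg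
  set w : List ℕ → ℝ := fun v => Y v * (1 - g v) with hw
  have hg1 : ∀ v, 0 ≤ g v ∧ g v ≤ 1 := fun v =>
    ⟨mul_nonneg hk.le (pow_nonneg (hY v).1 _), (hY v).2⟩
  have hw0 : ∀ v, 0 ≤ w v := fun v => mul_nonneg (hY v).1 (sub_nonneg.2 (hg1 v).2)
  have hY0 : 0 < Y [] := ha.trans_le h0
  set θ := fl κ w with hθ
  set r := rr g (1 / Y []) with hr
  have hθ1 := fl_bd (κ := κ) hw0
  have hr1 := rr_bd (g := g) (r₀ := 1 / Y []) (by positivity) hg1
  have hra : 1 / Y [] ≤ 1 / a := one_div_le_one_div_of_le ha h0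
  have inv : ∀ v : List ℕ, v.length ≤ L → θ v ≤ r v * lam ^ (2 * v.length) * Y v := by
    intro v
    induction v with
    | nil =>
      intro _
      change (1 : ℝ) ≤ 1 / Y [] * lam ^ (2 * 0) * Y []
      rw [mul_zero, pow_zero, mul_one, one_div_mul_cancel hY0.ne']
    | cons c u ih =>
      intro hv
      have hu : u.length < L := hv
      have h1 := ih hu.le
      have h2 := hrec u hu
      have h3 := (hr1 u).1
      have h4 := hw0 (c :: u)
      have e : r (c :: u) * lam ^ (2 * (c :: u).length) * Y (c :: u) =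
          r u * lam ^ (2 * u.length) * lam ^ 2 * w (c :: u) := by
        change r u * (1 - g (c :: u)) * lam ^ (2 * (u.length + 1)) * Y (c :: u) = _
        rw [hw]
        ring
      rw [e]
      change (if c < κ u then θ u * w (c :: u) / ∑ c' ∈ Finset.range (κ u), w (c' :: u)
        else 0) ≤ _
      split_ifs with h
      · refine div_le_of_le_mul₀ (Finset.sum_nonneg fun _ _ => hw0 _) (by positivity) ?_
        have h5 : θ u ≤ r u * lam ^ (2 * u.length) *
            (lam ^ 2 * ∑ c' ∈ Finset.range (κ u), w (c' :: u)) :=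
          h1.trans (mul_le_mul_of_nonneg_left h2 (by positivity))
        have h6 := mul_le_mul_of_nonneg_right h5 h4
        linarith
      · positivity
  have cons : ∀ u : List ℕ, u.length < L → θ u = ∑ c ∈ Finset.range (κ u), θ (c :: u) := by
    intro u hu
    have e : ∑ c ∈ Finset.range (κ u), θ (c :: u) = θ u *
        (∑ c ∈ Finset.range (κ u), w (c :: u)) / ∑ c ∈ Finset.range (κ u), w (c :: u) := by
      rw [Finset.mul_sum, Finset.sum_div]
      exact Finset.sum_congr rfl fun c hc => if_pos (Finset.mem_range.1 hc)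
    rw [e]
    by_cases h : ∑ c ∈ Finset.range (κ u), w (c :: u) = 0
    · have h2 := hrec u hu
      change Y u ≤ lam ^ 2 * ∑ c ∈ Finset.range (κ u), w (c :: u) at h2
      rw [h, mul_zero] at h2
      have h3 := inv u hu.le
      rw [le_antisymm h2 (hY u).1, mul_zero] at h3
      rw [le_antisymm h3 (hθ1 u).1]
      simp
    · rw [mul_div_cancel_right₀ _ h]
  set K : ℝ := (1 / a) ^ s / k with hK
  have hen : ∀ (c : ℕ) (u : List ℕ), u.length < L →
      en lam (s + 1) θ (c :: u) ≤ K * (θ (c :: u) * r u - θ (c :: u) * r (c :: u)) := by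
    intro c u hu
    have h1 := inv (c :: u) hu
    have h2 : θ (c :: u) / lam ^ (2 * (c :: u).length) ≤ r u * Y (c :: u) := by
      rw [div_le_iff₀ (by positivity)]
      refine h1.trans ?_
      have h3 : r (c :: u) ≤ r u := by
        change r u * (1 - g (c :: u)) ≤ r u
        nlinarith [(hr1 u).1, (hg1 (c :: u)).1]
      have h4 := (hY (c :: u)).1
      rw [mul_right_comm]
      gcongr
    have h5 := (hθ1 (c :: u)).1
    have h6 : (θ (c :: u) / lam ^ (2 * (c :: u).length)) ^ (s + 1) ≤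
        (1 / a) ^ s * r u * Y (c :: u) ^ (s + 1) := by
      refine (pow_le_pow_left₀ (by positivity) h2 _).trans ?_
      rw [mul_pow, pow_succ (r u)]
      have h7 := (hY (c :: u)).1
      have h8 := (hr1 u).1
      have h9 := (hr1 u).2.trans hra
      gcongr
    refine (mul_le_mul_of_nonneg_left h6 h5).trans (le_of_eq ?_)
    change _ = K * (θ (c :: u) * r u - θ (c :: u) * (r u * (1 - k * Y (c :: u) ^ (s + 1))))
    rw [hK]
    field_simp
    ring
  have hK0 : 0 ≤ K := by positivity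
  have tel : ∀ n ≤ L, ∑ j ∈ Finset.range (n + 1), ∑ v ∈ Lv κ j, en lam (s + 1) θ v +
      K * ∑ v ∈ Lv κ n, θ v * r v ≤ 1 + K * (1 / a) := by
    intro n
    induction n with
    | zero =>
      intro _
      have e1 : θ [] = 1 := rfl
      have e2 : r [] = 1 / Y [] := rfl
      simp only [zero_add, Finset.range_one, Finset.sum_singleton, Lv, en, e1, e2, one_mul,
        List.length_nil, mul_zero, pow_zero, div_one, one_pow]
      gcongr
    | succ n ih =>
      intro hn
      have h1 := ih (by omega)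
      rw [Finset.sum_range_succ _ (n + 1), add_assoc]
      refine le_trans (add_le_add le_rfl ?_) h1
      rw [sum_Lv, sum_Lv, Finset.mul_sum, Finset.mul_sum, ← Finset.sum_add_distrib]
      refine Finset.sum_le_sum fun u hu => ?_
      have hu' : u.length < L := by rw [(mem_Lv.1 hu).2]; omega
      rw [cons u hu', Finset.sum_mul, Finset.mul_sum, Finset.mul_sum, ← Finset.sum_add_distrib]
      refine Finset.sum_le_sum fun c _ => ?_
      have := hen c u hu'
      linarith
  refine ⟨θ, hθ1, rfl, cons, fun n hn => ?_⟩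
  have h1 := tel n hn
  have h2 : 0 ≤ K * ∑ v ∈ Lv κ n, θ v * r v :=
    mul_nonneg hK0 (Finset.sum_nonneg fun v _ => mul_nonneg (hθ1 v).1 (hr1 v).1)
  have e : K * (1 / a) = (1 / a) ^ (s + 1) / k := by rw [hK]; ring
  linarith

/-- a concave recursion with a root value bounded below gives positive capacity -/
theorem posCap_of_rec {lam k a : ℝ} (hl : 0 < lam) (hk : 0 < k) (ha : 0 < a) (s : ℕ)
    (Y : ℕ → List ℕ → ℝ) (hY : ∀ n v, 0 ≤ Y n v ∧ k * Y n v ^ (s + 1) ≤ 1)
    (h0 : ∀ n, a ≤ Y n [])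
    (hrec : ∀ n u, Y (n + 1) u ≤
      lam ^ 2 * ∑ c ∈ Finset.range (κ u), Y n (c :: u) * (1 - k * Y n (c :: u) ^ (s + 1))) :
    PosCap κ lam (s + 1) := by
  have h1 := fun L : ℕ => approx (κ := κ) hl hk ha s L (fun v => Y (L - v.length) v)
    (fun v => hY _ v) (h0 _) fun u hu => by
      have e : L - u.length = L - (u.length + 1) + 1 := by omega
      simp only [List.length_cons]
      rw [e]
      exact hrec _ u
  choose θ b1 b2 b3 b4 using h1
  have hc : IsCompact (Set.univ.pi fun _ : List ℕ => Set.Icc (0 : ℝ) 1) :=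
    isCompact_univ_pi fun _ => isCompact_Icc
  obtain ⟨θ₀, m0, φ, hφ, hlim⟩ := hc.tendsto_subseq (x := θ) fun L v _ => b1 L v
  have hv : ∀ v, Tendsto (fun j => θ (φ j) v) atTop (𝓝 (θ₀ v)) := fun v =>
    tendsto_pi_nhds.1 hlim v
  have hev : ∀ n, ∀ᶠ j in atTop, n ≤ φ j := fun n =>
    hφ.tendsto_atTop.eventually (eventually_ge_atTop n)
  refine (posCap_iff hl _).2 ⟨θ₀, ⟨fun v => (m0 v trivial).1, ?_, fun u => ?_⟩,
    1 + (1 / a) ^ (s + 1) / k, fun n => ?_⟩
  · refine tendsto_nhds_unique (hv []) ?_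
    simp only [b2]
    exact tendsto_const_nhds
  · refine tendsto_nhds_unique (hv u.1) ?_
    refine (tendsto_finsetSum _ fun c _ => hv (c :: u.1)).congr' ?_
    filter_upwards [hev (u.1.length + 1)] with j hj
    exact (b3 _ _ hj).symm
  · cases n with
    | zero => simp only [Finset.range_zero, Finset.sum_empty]; positivity
    | succ n =>
      refine le_of_tendsto (f := fun j => ∑ i ∈ Finset.range (n + 1), ∑ v ∈ Lv κ i,
        en lam (s + 1) (θ (φ j)) v) (x := atTop) ?_ ?_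
      · refine tendsto_finsetSum _ fun i _ => tendsto_finsetSum _ fun v _ => ?_
        exact (hv v).mul (((hv v).div_const _).pow _)
      · filter_upwards [hev n] with j hj
        exact b4 _ n hj

end Vale.Agent.N154
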