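import Vale.Agent.N154.Pair

/-!
# P154: the process with thinned leaves and its lower recursion
-/

namespace Vale.Agent.N154

open Vale.Agent.P154 Vale.Agent.P154B7

variable {q : ℕ} {FX K G th : (Fin q → ℝ) → ℝ} {γX γA δ μ C₀ C₂ : ℝ}

/-- absolute third moment of a channel -/
noncomputable def tm (th : (Fin q → ℝ) → ℝ) {I : Type} [Fintype I] (M : I → Fin q → ℝ) : ℝ :=
  |∑ η, th (M η)|

theorem tm_le (hL : IsLow q th μ C₀ C₂) {I : Type} [Fintype I] {M : I → Fin q → ℝ}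
    (hM : Good FX M) : tm th M ≤ 9 * val M := by
  rw [val, Finset.mul_sum]
  exact (Finset.abs_sum_le_sum_abs _ _).trans
    (Finset.sum_le_sum fun η _ => hL.th_le _ (hM.nonneg η) (hM.mpos η))

theorem tm_pl (hL : IsLow q th μ C₀ C₂) {s : ℝ} (hs : 0 ≤ s) {I : Type} [Fintype I]
    (M : I → Fin q → ℝ) : tm th (fun η => pl s (M η)) = s ^ 3 * tm th M := by
  simp only [tm, hL.th_pl, ← Finset.mul_sum, abs_mul, abs_of_nonneg (pow_nonneg hs 3)]

theorem low_prod (hL : IsLow q th μ C₀ C₂) (hq : 2 ≤ q) {I J : Type} [Fintype I] [Fintype J]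
    {M : I → Fin q → ℝ} {N : J → Fin q → ℝ} (hM : Good FX M) (hN : Good FX N)
    (pM : ∀ η i, 0 < M η i) (pN : ∀ η i, 0 < N η i) (lM : ∀ η i, μ * mean (M η) ≤ M η i) :
    val M + val N ≤ val (fun (p : I × J) i => M p.1 i * N p.2 i) + C₀ * (val M * val N) +
      2 * (val M * tm th N + tm th M * val N) ∧
    tm th (fun (p : I × J) i => M p.1 i * N p.2 i) ≤
      tm th M + tm th N + C₂ * (val M * val N) := by
  have m1 := sum_mean_eq_one hq hM
  have m2 := sum_mean_eq_one hq hN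
  constructor
  · have h := Finset.sum_le_sum fun η (_ : η ∈ Finset.univ) => Finset.sum_le_sum
      fun ζ (_ : ζ ∈ Finset.univ) => hL.pair1 _ _ (pM η) (pN ζ)
    simp only [Finset.sum_add_distrib, ← Finset.mul_sum] at h
    simp only [← Finset.sum_mul] at h
    rw [avg_sum hN, m1, m2] at h
    have h1 := tm_le hL hM
    have x0 := val_nonneg hq hM.mpos
    have y0 := val_nonneg hq hN.mpos
    unfold tm val at *
    generalize ∑ η, th (M η) = a at *
    generalize ∑ η, th (N η) = b at *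
    generalize ∑ η, chi (M η) = x at *
    generalize ∑ η, chi (N η) = y at *
    have h2 : a * b ≤ 9 * x * |b| :=
      (le_abs_self _).trans ((abs_mul _ _).trans_le (mul_le_mul_of_nonneg_right h1 (abs_nonneg _)))
    have h3 := mul_le_mul_of_nonneg_left (le_abs_self b) x0
    have h4 := mul_le_mul_of_nonneg_right (le_abs_self a) y0
    have h5 := mul_nonneg x0 (abs_nonneg b)
    have h6 := mul_nonneg (abs_nonneg a) y0
    linarith
  · have h := Finset.sum_le_sum fun η (_ : η ∈ Finset.univ) =>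
      (Finset.abs_sum_le_sum_abs _ _).trans (Finset.sum_le_sum
        fun ζ (_ : ζ ∈ Finset.univ) => hL.pair2 _ _ (pM η) (pN ζ) (lM η))
    replace h := (Finset.abs_sum_le_sum_abs _ _).trans h
    simp only [Finset.sum_add_distrib, Finset.sum_sub_distrib, ← Finset.mul_sum] at h
    simp only [← Finset.sum_mul] at h
    rw [avg_sum hN, m1, m2, mul_one, one_mul] at h
    unfold tm val
    have h1 := abs_add_le (∑ η, th (M η)) (∑ η, th (N η))
    have h2 := abs_sub_abs_le_abs_sub (∑ p : I × J, th fun i => M p.1 i * N p.2 i)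
      (∑ η, th (M η) + ∑ η, th (N η))
    linarith

theorem fin_low (hC : IsCert q FX K G γX γA δ) (hL : IsLow q th μ C₀ C₂) (hq : 2 ≤ q) :
    ∀ (k : ℕ) (I : Fin k → Type) [∀ c, Fintype (I c)] (M : (c : Fin k) → I c → Fin q → ℝ),
    (∀ c, Good FX (M c)) → (∀ c η i, 0 < M c η i) → (∀ c η i, μ * mean (M c η) ≤ M c η i) →
    ∀ Y τ : ℝ, Y = ∑ c, val (M c) → τ = ∑ c, tm th (M c) →
    val (fun (η : (c : Fin k) → I c) i => ∏ c, M c (η c) i) ≤ Y ∧
    tm th (fun (η : (c : Fin k) → I c) i => ∏ c, M c (η c) i) ≤ τ + C₂ * Y ^ 2 ∧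
    Y ≤ val (fun (η : (c : Fin k) → I c) i => ∏ c, M c (η c) i) + C₀ * Y ^ 2 +
      2 * (Y * (τ + C₂ * Y ^ 2))
  | 0, I, _, M, _, _, _, Y, τ, hY, hτ => by
    rw [val, tm, sum_fin_zero, sum_fin_zero, chi_const hq, hL.th_one, hY, hτ]
    simp
  | k + 1, I, _, M, hM, pM, lM, Y, τ, hY, hτ => by
    obtain ⟨i1, i2, i3⟩ := fin_low hC hL hq k (fun c => I c.succ) (fun c => M c.succ)
      (fun c => hM c.succ) (fun c => pM c.succ) (fun c => lM c.succ) _ _ rfl rfl
    have hg := (good_fin_prod hC hq k (fun c => I c.succ) (fun c => M c.succ)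
      (fun c => hM c.succ) fun c => pM c.succ).1
    have pr : ∀ (η : (c : Fin k) → I c.succ) i, 0 < ∏ c, M c.succ (η c) i := fun η i =>
      Finset.prod_pos fun c _ => pM _ _ _
    have hv := val_prod hC (hM 0) hg (pM 0) pr hq
    obtain ⟨l1, l2⟩ := low_prod hL hq (hM 0) hg (pM 0) pr (lM 0)
    have h1 := val_nonneg hq (hM 0).mpos
    have h2 := val_nonneg hq hg.mpos
    have h3 : 0 ≤ tm th (M 0) := abs_nonneg _
    have h4 : 0 ≤ ∑ c : Fin k, tm th (M c.succ) := Finset.sum_nonneg fun _ _ => abs_nonneg _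
    rw [Fin.sum_univ_succ] at hY hτ
    rw [val, tm, sum_fin_succ, sum_fin_succ]
    change val (fun (p : I 0 × ((c : Fin k) → I c.succ)) i =>
      M 0 p.1 i * ∏ c, M c.succ (p.2 c) i) ≤ _ ∧ tm th (fun (p : I 0 × ((c : Fin k) → I c.succ)) i =>
      M 0 p.1 i * ∏ c, M c.succ (p.2 c) i) ≤ _ ∧ _ ≤ val (fun (p : I 0 × ((c : Fin k) → I c.succ)) i =>
      M 0 p.1 i * ∏ c, M c.succ (p.2 c) i) + _ + _
    generalize val (fun (p : I 0 × ((c : Fin k) → I c.succ)) i =>
      M 0 p.1 i * ∏ c, M c.succ (p.2 c) i) = z at *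
    generalize tm th (fun (p : I 0 × ((c : Fin k) → I c.succ)) i =>
      M 0 p.1 i * ∏ c, M c.succ (p.2 c) i) = tz at *
    generalize val (fun (η : (c : Fin k) → I c.succ) i => ∏ c, M c.succ (η c) i) = y at *
    generalize tm th (fun (η : (c : Fin k) → I c.succ) i => ∏ c, M c.succ (η c) i) = ty at *
    generalize val (M 0) = x at *
    generalize tm th (M 0) = tx at *
    generalize ∑ c : Fin k, val (M c.succ) = Y' at *
    generalize ∑ c : Fin k, tm th (M c.succ) = τ' at *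
    subst hY hτ
    have c0 := hL.c0
    have c2 := hL.c2
    have d0 := hC.δ_pos.le
    have y0 : 0 ≤ Y' := h2.trans i1
    have p1 : x * y ≤ x * Y' := mul_le_mul_of_nonneg_left i1 h1
    have p2 : x * Y' + Y' ^ 2 ≤ (x + Y') ^ 2 := by nlinarith [mul_nonneg h1 y0]
    have p3 : C₂ * (x * y + Y' ^ 2) ≤ C₂ * (x + Y') ^ 2 :=
      mul_le_mul_of_nonneg_left (by linarith) c2
    have p4 : C₀ * (x * y + Y' ^ 2) ≤ C₀ * (x + Y') ^ 2 :=
      mul_le_mul_of_nonneg_left (by linarith) c0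
    have p5 : 0 ≤ δ * (x * y * (x + y)) := by positivity
    refine ⟨by linarith, by linarith, ?_⟩
    have p6 : C₂ * Y' ^ 2 ≤ C₂ * (x + Y') ^ 2 := by gcongr; linarith
    have p7 : x * ty ≤ x * (tx + τ' + C₂ * (x + Y') ^ 2) :=
      mul_le_mul_of_nonneg_left (by linarith) h1
    have p8 : tx * y ≤ tx * Y' := mul_le_mul_of_nonneg_left i1 h3
    have p9 := mul_le_mul_of_nonneg_left p6 y0
    nlinarith only [l1, i3, p4, p7, p8, p9]

/-- likelihoods of the process in which each leaf `v` is passed through one more channel `s v` -/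
noncomputable def nl (q : ℕ) (lam : ℝ) (s : List ℕ → ℝ) (κ : List ℕ → ℕ) :
    (n : ℕ) → (u : List ℕ) → Spins q n (cut κ n u) → Fin q → ℝ
  | 0, u, η => pl (s u) fun i => if i = (show Fin q from η) then 1 else 0
  | n + 1, u, η => fun i => ∏ c : Fin (κ u), pl lam (nl q lam s κ n (c :: u) (η c)) i

/-- the noise kernel -/
noncomputable def ker (q : ℕ) (s : List ℕ → ℝ) (κ : List ℕ → ℕ) :
    (n : ℕ) → (u : List ℕ) → Spins q n (cut κ n u) → Spins q n (cut κ n u) → ℝ
  | 0, u, η, ζ => potts q (s u) η ζ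
  | n + 1, u, η, ζ => ∏ c : Fin (κ u), ker q s κ n (c :: u) (η c) (ζ c)

variable {lam : ℝ} {s : List ℕ → ℝ} {κ : List ℕ → ℕ}

theorem ker_nonneg (hs : ∀ v, 0 ≤ s v ∧ s v < 1) :
    ∀ (n : ℕ) (u : List ℕ) η ζ, 0 ≤ ker q s κ n u η ζ
  | 0, u, _, _ => potts_nn (hs u).1 (hs u).2.le _ _
  | n + 1, _, _, _ => Finset.prod_nonneg fun _ _ => ker_nonneg hs n _ _ _

theorem ker_sum (hq : 2 ≤ q) : ∀ (n : ℕ) (u : List ℕ) η, ∑ ζ, ker q s κ n u η ζ = 1
  | 0, u, η => potts_sum hq (s u) η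
  | n + 1, u, η => by
    show ∑ ζ : (c : Fin (κ u)) → Spins q n (cut κ n (c :: u)),
      ∏ c : Fin (κ u), ker q s κ n (c :: u) (η c) (ζ c) = 1
    rw [← Fintype.prod_sum fun (c : Fin (κ u)) (x : Spins q n (cut κ n (c :: u))) =>
      ker q s κ n (c :: u) (η c) x]
    exact Finset.prod_eq_one fun c _ => ker_sum hq n _ _

theorem nl_eq (hq : 2 ≤ q) : ∀ (n : ℕ) (u : List ℕ) ζ i, nl q lam s κ n u ζ i =
    ∑ η, ker q s κ n u η ζ * lik q lam n (cut κ n u) i η
  | 0, u, ζ, i => by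
    have key : ∀ z : Fin q, pl (s u) (fun i => if i = z then 1 else 0) i =
        ∑ η : Fin q, potts q (s u) η z * if i = η then 1 else 0 := fun z => by
      rw [← edge_eq _ hq]
      simp
    exact key ζ
  | n + 1, u, ζ, i => by
    show ∏ c : Fin (κ u), pl lam (nl q lam s κ n (c :: u) (ζ c)) i =
      ∑ η : (c : Fin (κ u)) → Spins q n (cut κ n (c :: u)),
        (∏ c : Fin (κ u), ker q s κ n (c :: u) (η c) (ζ c)) *
        ∏ c : Fin (κ u), ∑ j, potts q lam i j * lik q lam n (cut κ n (c :: u)) j (η c)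
    simp only [← Finset.prod_mul_distrib]
    rw [← Fintype.prod_sum fun (c : Fin (κ u)) (x : Spins q n (cut κ n (c :: u))) =>
      ker q s κ n (c :: u) x (ζ c) * ∑ j, potts q lam i j * lik q lam n (cut κ n (c :: u)) j x]
    refine Finset.prod_congr rfl fun c _ => ?_
    rw [← edge_eq _ hq]
    simp only [nl_eq hq n, Finset.mul_sum]
    rw [Finset.sum_comm]
    exact Finset.sum_congr rfl fun _ _ => Finset.sum_congr rfl fun _ _ => by ring

theorem chi_le_phi (hq : 2 ≤ q) {v : Fin q → ℝ} (hv : ∀ i, 0 ≤ v i) (hs : 0 < ∑ i, v i) :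
    chi v ≤ 4 * anti_phi q v := by
  have hq' : (2 : ℝ) ≤ q := by exact_mod_cast hq
  have e : anti_phi q v = (∑ i, |v i - (∑ j, v j) / q|) / (2 * q) := by
    rw [anti_phi, ← Finset.mul_sum, Finset.mul_sum, Finset.sum_div]
    refine Finset.sum_congr rfl fun i _ => ?_
    rw [show 1 / (q : ℝ) * v i - 1 / q * (∑ j, v j) * (1 / q) = 1 / q * (v i - (∑ j, v j) / q) by
      ring, abs_mul, abs_of_pos (by positivity : (0 : ℝ) < 1 / q)]
    field_simp
  have h1 : ∑ i, v i * (v i - (∑ j, v j) / q) ≤ ∑ i, (∑ j, v j) * |v i - (∑ j, v j) / q| :=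
    Finset.sum_le_sum fun i _ => (mul_le_mul_of_nonneg_left (le_abs_self _) (hv i)).trans
      (mul_le_mul_of_nonneg_right (Finset.single_le_sum (fun j _ => hv j) (Finset.mem_univ i))
        (abs_nonneg _))
  have h2 : 0 ≤ ∑ i, |v i - (∑ j, v j) / q| := Finset.sum_nonneg fun _ _ => abs_nonneg _
  simp only [mul_sub, Finset.sum_sub_distrib, ← Finset.sum_mul, ← Finset.mul_sum, ← sq] at h1
  rw [e, chi]
  generalize ∑ i, |v i - (∑ j, v j) / q| = A at *
  have h3 : (∑ i, v i ^ 2) / (∑ i, v i) - (∑ i, v i) / q ≤ A := by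
    rw [sub_le_iff_le_add, div_le_iff₀ hs]
    linarith
  rw [div_le_iff₀ (by linarith), show 4 * (A / (2 * q)) * (q - 1) = A * (2 * (q - 1) / q) by
    field_simp; ring]
  refine h3.trans (le_mul_of_one_le_right h2 ?_)
  rw [le_div_iff₀ (by linarith)]
  linarith

theorem good_nl (hC : IsCert q FX K G γX γA δ) (hq : 2 ≤ q) (h0 : 0 ≤ lam) (h1 : lam < 1)
    (hs : ∀ v, 0 ≤ s v ∧ s v < 1) : ∀ (n : ℕ) (u : List ℕ), Good FX (nl q lam s κ n u)
  | 0, u => (good_edge hC hq (hs u).1 (hs u).2 (good_leaf hC)).1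
  | n + 1, u => (good_fin_prod hC hq (κ u) (fun c => Spins q n (cut κ n (c :: u)))
      (fun c η => pl lam (nl q lam s κ n (c :: u) η))
      (fun c => (good_edge hC hq h0 h1 (good_nl hC hq h0 h1 hs n (c :: u))).1)
      fun c => (good_edge hC hq h0 h1 (good_nl hC hq h0 h1 hs n (c :: u))).2).1

theorem val_nl_le (hC : IsCert q FX K G γX γA δ) (hq : 2 ≤ q) (h0 : 0 ≤ lam) (h1 : lam < 1)
    (hs : ∀ v, 0 ≤ s v ∧ s v < 1) (n : ℕ) (u : List ℕ) :
    val (nl q lam s κ n u) ≤ 4 * tadv q lam n (cut κ n u) := by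
  have hg := good_nl (κ := κ) hC hq h0 h1 hs n u
  rw [tadv, anti_G_eq (by omega) (potts_nn h0 h1.le), val]
  refine (Finset.sum_le_sum fun ζ _ => chi_le_phi hq (hg.nonneg ζ) (hg.mpos ζ)).trans ?_
  rw [← Finset.mul_sum]
  refine mul_le_mul_of_nonneg_left ?_ (by norm_num)
  calc ∑ ζ, anti_phi q (nl q lam s κ n u ζ)
      ≤ ∑ ζ, ∑ η, ker q s κ n u η ζ * anti_phi q (fun i => lik q lam n (cut κ n u) i η) := by
        refine Finset.sum_le_sum fun ζ _ => ?_
        rw [funext (nl_eq (lam := lam) hq n u ζ)]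
        exact anti_phi_sum_le Finset.univ (fun η => ker q s κ n u η ζ)
          (fun η _ => ker_nonneg hs n u η ζ) fun η i => lik q lam n (cut κ n u) i η
    _ = anti_G q lam n (cut κ n u) := by
        rw [Finset.sum_comm]
        refine Finset.sum_congr rfl fun η _ => ?_
        rw [← Finset.sum_mul, ker_sum hq, one_mul]

/-- The real recursion satisfied by the values `x` and third moments `t`. -/
structure Rec (κ : List ℕ → ℕ) (lam C₀ C₂ : ℝ) (s : List ℕ → ℝ) (x t : ℕ → List ℕ → ℝ) :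
    Prop where
  x0 : ∀ n u, 0 ≤ x n u
  t0 : ∀ n u, 0 ≤ t n u
  xl : ∀ u, x 0 u = s u ^ 2
  tl : ∀ u, t 0 u ≤ 9 * s u ^ 3
  step : ∀ n u Y τ, Y = lam ^ 2 * ∑ c ∈ Finset.range (κ u), x n (c :: u) →
    τ = lam ^ 3 * ∑ c ∈ Finset.range (κ u), t n (c :: u) → x (n + 1) u ≤ Y ∧
    t (n + 1) u ≤ τ + C₂ * Y ^ 2 ∧ Y ≤ x (n + 1) u + C₀ * Y ^ 2 + 2 * (Y * (τ + C₂ * Y ^ 2))

theorem val_leaf (hq : 2 ≤ q) :
    val (fun (η : Fin q) (i : Fin q) => if i = η then (1 : ℝ) else 0) = 1 := by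
  have hq' : (2 : ℝ) ≤ q := by exact_mod_cast hq
  have h1 : (q : ℝ) - 1 ≠ 0 := by linarith
  simp [val, chi]
  field_simp

theorem rec_nl (hC : IsCert q FX K G γX γA δ) (hL : IsLow q th (1 - lam) C₀ C₂) (hq : 2 ≤ q)
    (h0 : 0 ≤ lam) (h1 : lam < 1) (hs : ∀ v, 0 ≤ s v ∧ s v < 1) :
    Rec κ lam C₀ C₂ s (fun n u => val (nl q lam s κ n u)) fun n u => tm th (nl q lam s κ n u) := by
  have hg := good_nl (κ := κ) hC hq h0 h1 hs
  refine ⟨fun n u => val_nonneg hq (hg n u).mpos, fun n u => abs_nonneg _, fun u => ?_,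
    fun u => ?_, fun n u Y τ hY hτ => ?_⟩
  · exact (val_edge hq (s u) (good_leaf hC).mpos).trans (by rw [val_leaf hq, mul_one])
  · refine (tm_pl hL (hs u).1 fun (η : Fin q) (i : Fin q) => if i = η then (1 : ℝ) else 0).trans_le ?_
    have h2 := tm_le hL (good_leaf hC)
    rw [val_leaf hq] at h2
    nlinarith [pow_nonneg (hs u).1 3]
  · refine fin_low hC hL hq (κ u) (fun c => Spins q n (cut κ n (c :: u)))
      (fun c η => pl lam (nl q lam s κ n (c :: u) η))
      (fun c => (good_edge hC hq h0 h1 (hg n (c :: u))).1)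
      (fun c => (good_edge hC hq h0 h1 (hg n (c :: u))).2) (fun c η i => ?_) Y τ ?_ ?_
    · rw [mean_pl hq, pl]
      exact le_add_of_nonneg_left (mul_nonneg h0 ((hg n _).nonneg η i))
    · rw [hY, Finset.sum_range, Finset.mul_sum]
      exact Finset.sum_congr rfl fun c _ => (val_edge hq lam (hg n _).mpos).symm
    · rw [hτ, Finset.sum_range, Finset.mul_sum]
      exact Finset.sum_congr rfl fun c _ => (tm_pl hL h0 _).symm

end Vale.Agent.N154
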