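import Vale.Agent.N154.Up

/-!
# P154: lower pair inequalities for three and four states
-/

namespace Vale.Agent.N154

open Vale.Agent.P154

/-- Lower pair inequalities, with a third moment functional `th`. -/
structure IsLow (q : ℕ) (th : (Fin q → ℝ) → ℝ) (μ C₀ C₂ : ℝ) : Prop where
  c0 : 0 ≤ C₀
  c2 : 0 ≤ C₂
  th_pl : ∀ s v, th (pl s v) = s ^ 3 * th v
  th_one : th (fun _ => 1) = 0
  th_le : ∀ v : Fin q → ℝ, (∀ i, 0 ≤ v i) → 0 < ∑ i, v i → |th v| ≤ 9 * chi v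
  pair1 : ∀ v w : Fin q → ℝ, (∀ i, 0 < v i) → (∀ i, 0 < w i) →
    chi v * mean w + mean v * chi w ≤ avgPerm chi v w + C₀ * (chi v * chi w) +
      2 / 3 * (chi v * th w + th v * chi w) + 1 / 18 * (th v * th w)
  pair2 : ∀ v w : Fin q → ℝ, (∀ i, 0 < v i) → (∀ i, 0 < w i) → (∀ i, μ * mean v ≤ v i) →
    |avgPerm th v w - (th v * mean w + mean v * th w)| ≤ C₂ * (chi v * chi w)

section Q3

open Vale.Agent.P154.Q3

theorem ch_low {f0 f1 f2 : ℝ} (h0 : 0 < f0) (h1 : 0 < f1) (h2 : 0 < f2) :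
    ((f0^2+f1^2+f2^2)/3 - ((f0+f1+f2)/3)^2) * (2 - (f0+f1+f2)/3) / 2 ≤ ch f0 f1 f2 := by
  have hZ : 0 < f0+f1+f2 := by positivity
  have hD : 0 ≤ (f0^2+f1^2+f2^2)/3 - ((f0+f1+f2)/3)^2 := by
    nlinarith [sq_nonneg (f0-f1), sq_nonneg (f1-f2), sq_nonneg (f0-f2)]
  have e : ch f0 f1 f2 = ((f0^2+f1^2+f2^2)/3 - ((f0+f1+f2)/3)^2) * (2 - (f0+f1+f2)/3) / 2 +
      ((f0^2+f1^2+f2^2)/3 - ((f0+f1+f2)/3)^2) * (1 - (f0+f1+f2)/3)^2 / (2 * ((f0+f1+f2)/3)) := by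
    unfold ch
    field_simp
    ring
  rw [e]
  exact le_add_of_nonneg_right (by positivity)

theorem low3_norm {a0 a1 a2 b0 b1 b2 : ℝ} (ha0 : 0 < a0) (ha1 : 0 < a1) (ha2 : 0 < a2)
    (hb0 : 0 < b0) (hb1 : 0 < b1) (hb2 : 0 < b2) (hsa : a0+a1+a2 = 3) (hsb : b0+b1+b2 = 3) :
    ch a0 a1 a2 + ch b0 b1 b2 ≤
    (ch (a0*b0) (a1*b1) (a2*b2) + ch (a0*b1) (a1*b2) (a2*b0) + ch (a0*b2) (a1*b0) (a2*b1)
      + ch (a0*b0) (a1*b2) (a2*b1) + ch (a0*b2) (a1*b1) (a2*b0) + ch (a0*b1) (a1*b0) (a2*b2))/6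
    + 5*(ch a0 a1 a2 * ch b0 b1 b2) := by
  obtain ⟨x, s, p, hx, hsd, -, -, hx0, hx1, hsx, -⟩ := chan ha0.le ha1.le ha2.le hsa
  obtain ⟨y, v, q, hy, hvd, -, -, hy0, hy1, hvy, -⟩ := chan hb0.le hb1.le hb2.le hsb
  have ex : ch a0 a1 a2 = x := by unfold ch; rw [hsa, hx]; ring
  have ey : ch b0 b1 b2 = y := by unfold ch; rw [hsb, hy]; ring
  have h1 : s ≤ x := by
    refine (abs_le_of_sq_le_sq' ?_ hx0).2
    nlinarith [sq_nonneg x]
  have h2 : v ≤ y := by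
    refine (abs_le_of_sq_le_sq' ?_ hy0).2
    nlinarith [sq_nonneg y]
  have l := add_le_add (add_le_add (add_le_add (add_le_add (add_le_add
    (ch_low (mul_pos ha0 hb0) (mul_pos ha1 hb1) (mul_pos ha2 hb2))
    (ch_low (mul_pos ha0 hb1) (mul_pos ha1 hb2) (mul_pos ha2 hb0)))
    (ch_low (mul_pos ha0 hb2) (mul_pos ha1 hb0) (mul_pos ha2 hb1)))
    (ch_low (mul_pos ha0 hb0) (mul_pos ha1 hb2) (mul_pos ha2 hb1)))
    (ch_low (mul_pos ha0 hb2) (mul_pos ha1 hb1) (mul_pos ha2 hb0)))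
    (ch_low (mul_pos ha0 hb1) (mul_pos ha1 hb0) (mul_pos ha2 hb2))
  have l2 := le_of_eq_of_le (a := 6 * (x + y - x * y - 2 * (x * v + s * y))) (by
    have ea : a2 = 3 - a0 - a1 := by linarith only [hsa]
    have eb : b2 = 3 - b0 - b1 := by linarith only [hsb]
    rw [hsd, hvd, hx, hy, ea, eb]
    ring) l
  rw [ex, ey]
  nlinarith only [l2, mul_le_mul_of_nonneg_left h2 hx0, mul_le_mul_of_nonneg_right h1 hy0]

theorem isLow3 (μ : ℝ) : IsLow 3 (fun _ => 0) μ 5 0 where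
  c0 := by norm_num
  c2 := le_rfl
  th_pl := by simp
  th_one := rfl
  th_le := fun v _ h => by
    have := chi_nonneg (by norm_num) h
    rw [abs_zero]
    positivity
  pair2 := by simp [avgPerm]
  pair1 := by
    intro v w hv hw
    have hsv : 0 < ∑ i, v i := Finset.sum_pos (fun i _ => hv i) Finset.univ_nonempty
    have hsw : 0 < ∑ i, w i := Finset.sum_pos (fun i _ => hw i) Finset.univ_nonempty
    have hchi : avgPerm chi v w = avgPerm (fun u => ch (u 0) (u 1) (u 2)) v w := by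
      unfold avgPerm
      congr 1
      apply Finset.sum_congr rfl
      intro τ _
      exact chi_eq _ (Finset.sum_pos (fun i _ => mul_pos (hv i) (hw _)) Finset.univ_nonempty)
    rw [hchi, chi_eq v hsv, chi_eq w hsw, mean_eq, mean_eq, avgPerm3]
    obtain ⟨m, a0, a1, a2, hm, -, -, -, hpos, hsa, e0, e1, e2⟩ :=
      scaled v (fun i => (hv i).le) hsv
    obtain ⟨h0, h1, h2⟩ := hpos hv
    obtain ⟨n, b0, b1, b2, hn, -, -, -, hpos', hsb, f0, f1, f2⟩ :=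
      scaled w (fun i => (hw i).le) hsw
    obtain ⟨k0, k1, k2⟩ := hpos' hw
    have key := low3_norm h0 h1 h2 k0 k1 k2 hsa hsb
    simp only [Matrix.cons_val_zero, Matrix.cons_val_one, Matrix.cons_val]
    rw [e0, e1, e2, f0, f1, f2]
    rw [ch_pair hm hn h0 h1 h2 k0 k1 k2, ch_pair hm hn h0 h1 h2 k1 k2 k0,
      ch_pair hm hn h0 h1 h2 k2 k0 k1, ch_pair hm hn h0 h1 h2 k0 k2 k1,
      ch_pair hm hn h0 h1 h2 k2 k1 k0, ch_pair hm hn h0 h1 h2 k1 k0 k2,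
      ch_smul hm (by positivity), ch_smul hn (by positivity)]
    have s1 : m*a0+m*a1+m*a2 = m*3 := by rw [← hsa]; ring
    have s2 : n*b0+n*b1+n*b2 = n*3 := by rw [← hsb]; ring
    rw [s1, s2]
    have := mul_le_mul_of_nonneg_left key (by positivity : 0 ≤ m*n)
    refine le_trans (le_of_eq ?_) (this.trans (le_of_eq ?_)) <;> ring

end Q3

section Q4

open Vale.Agent.P154.Q4

/-- homogeneous form of the third central moment -/
noncomputable def th (v : Fin 4 → ℝ) : ℝ := (∑ i, (v i - mean v) ^ 3) / 4 / mean v ^ 2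

/-- central moments of a vector of mean one -/
noncomputable def mo (k : ℕ) (f : Fin 4 → ℝ) : ℝ := (∑ i, (f i - 1) ^ k) / 4

/-- polynomial approximation of `3 chi` -/
noncomputable def pA (p : Fin 4 → ℝ) : ℝ := ((∑ i, p i ^ 2) / 4 - mean p ^ 2) * (2 - mean p)

/-- polynomial approximation of `th` -/
noncomputable def pB (p : Fin 4 → ℝ) : ℝ := (∑ i, (p i - mean p) ^ 3) / 4 * (3 - 2 * mean p)

theorem mean4 (v : Fin 4 → ℝ) : mean v = (v 0 + v 1 + v 2 + v 3) / 4 := by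
  rw [mean, Fin.sum_univ_four]
  norm_num

theorem pA_eq (p : Fin 4 → ℝ) : pA p = PS ![2, 0, 0, 0] p / 16 - PS ![1, 1, 0, 0] p / 16 -
    PS ![3, 0, 0, 0] p / 128 - PS ![2, 1, 0, 0] p / 128 + PS ![1, 1, 1, 0] p / 64 := by
  simp only [pA, mean4, PS_explicit, P24, Fin.sum_univ_four, Matrix.cons_val_zero,
    Matrix.cons_val_one, Matrix.cons_val]
  ring

theorem pB_eq (p : Fin 4 → ℝ) : pB p = PS ![3, 0, 0, 0] p * (3 / 64) -
    PS ![2, 1, 0, 0] p * (9 / 64) + PS ![1, 1, 1, 0] p * (3 / 32) - PS ![4, 0, 0, 0] p / 128 +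
    PS ![2, 2, 0, 0] p * (3 / 128) - PS ![1, 1, 1, 1] p / 64 := by
  simp only [pB, mean4, PS_explicit, P24, Fin.sum_univ_four, Matrix.cons_val_zero,
    Matrix.cons_val_one, Matrix.cons_val]
  ring

theorem PS_mo {f : Fin 4 → ℝ} (h : ∑ i, f i = 4) :
    PS ![2, 0, 0, 0] f = 24 * (1 + mo 2 f) ∧ PS ![1, 1, 0, 0] f = 24 - 8 * mo 2 f ∧
    PS ![3, 0, 0, 0] f = 24 * (1 + 3 * mo 2 f + mo 3 f) ∧
    PS ![2, 1, 0, 0] f = 24 + 8 * mo 2 f - 8 * mo 3 f ∧
    PS ![1, 1, 1, 0] f = 24 - 24 * mo 2 f + 8 * mo 3 f ∧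
    PS ![4, 0, 0, 0] f = 24 * (1 + 6 * mo 2 f + 4 * mo 3 f + mo 4 f) ∧
    PS ![2, 2, 0, 0] f = 24 + 16 * mo 2 f + 32 * mo 2 f ^ 2 - 32 * mo 3 f - 8 * mo 4 f ∧
    PS ![1, 1, 1, 1] f = 24 - 48 * mo 2 f + 48 * mo 2 f ^ 2 + 32 * mo 3 f - 24 * mo 4 f := by
  rw [Fin.sum_univ_four] at h
  have h3 : f 3 = 4 - f 0 - f 1 - f 2 := by linarith
  simp only [mo, PS_explicit, P24, Fin.sum_univ_four, Matrix.cons_val_zero,
    Matrix.cons_val_one, Matrix.cons_val, h3]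
  refine ⟨?_, ?_, ?_, ?_, ?_, ?_, ?_, ?_⟩ <;> ring

theorem fact4 : ((Nat.factorial 4 : ℕ) : ℝ) = 24 := by norm_num [Nat.factorial]

theorem avg_pA {f g : Fin 4 → ℝ} (hf : ∑ i, f i = 4) (hg : ∑ i, g i = 4) :
    avgPerm pA f g = mo 2 f + mo 2 g - 2 / 3 * (mo 2 f * mo 3 g + mo 3 f * mo 2 g) -
      1 / 6 * (mo 3 f * mo 3 g) := by
  obtain ⟨a1, a2, a3, a4, a5, -⟩ := PS_mo hf
  obtain ⟨b1, b2, b3, b4, b5, -⟩ := PS_mo hg
  simp only [avgPerm, pA_eq, Finset.sum_add_distrib, Finset.sum_sub_distrib, ← Finset.sum_div,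
    sum_PS_mul, a1, a2, a3, a4, a5, b1, b2, b3, b4, b5, fact4]
  ring

theorem avg_pB {f g : Fin 4 → ℝ} (hf : ∑ i, f i = 4) (hg : ∑ i, g i = 4) :
    avgPerm pB f g = mo 3 f + mo 3 g + (4 * (mo 2 f * mo 2 g) - mo 2 f * mo 3 g -
      mo 3 f * mo 2 g - 2 * (mo 2 f * mo 4 g) - 2 * (mo 4 f * mo 2 g) +
      2 * (mo 2 f * mo 2 g ^ 2) + 2 * (mo 2 f ^ 2 * mo 2 g) - 5 / 3 * (mo 3 f * mo 3 g) -
      2 * (mo 3 f * mo 2 g ^ 2) - 2 * (mo 2 f ^ 2 * mo 3 g) - 1 / 2 * (mo 4 f * mo 4 g) +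
      1 / 2 * (mo 4 f * mo 2 g ^ 2) + 1 / 2 * (mo 2 f ^ 2 * mo 4 g) -
      1 / 2 * (mo 2 f ^ 2 * mo 2 g ^ 2)) := by
  obtain ⟨-, -, a3, a4, a5, a6, a7, a8⟩ := PS_mo hf
  obtain ⟨-, -, b3, b4, b5, b6, b7, b8⟩ := PS_mo hg
  simp only [avgPerm, pB_eq, Finset.sum_add_distrib, Finset.sum_sub_distrib, ← Finset.sum_div,
    ← Finset.sum_mul, sum_PS_mul, a3, a4, a5, a6, a7, a8, b3, b4, b5, b6, b7, b8, fact4]
  ring

theorem mo_bd {f : Fin 4 → ℝ} (h0 : ∀ i, 0 ≤ f i) (hf : ∑ i, f i = 4) :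
    (∀ i, f i ≤ 4) ∧ 0 ≤ mo 2 f ∧ |mo 2 f| ≤ 1 * mo 2 f ∧ |mo 3 f| ≤ 3 * mo 2 f ∧
      |mo 4 f| ≤ 9 * mo 2 f ∧ |mo 2 f ^ 2| ≤ 9 * mo 2 f := by
  have h4 : ∀ i, f i ≤ 4 := fun i => hf ▸ Finset.single_le_sum (fun j _ => h0 j) (Finset.mem_univ i)
  have h1 : ∀ i, |f i - 1| ≤ 3 := fun i => abs_le.2 ⟨by linarith [h0 i], by linarith [h4 i]⟩
  have h2 : ∀ i, (f i - 1) ^ 2 ≤ 9 := fun i => by
    have := abs_le.1 (h1 i)
    nlinarith
  have hR : 0 ≤ mo 2 f := by unfold mo; positivity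
  have hk : ∀ (k : ℕ) (c : ℝ), (∀ i, |f i - 1| ^ k ≤ c) → |mo (k + 2) f| ≤ c * mo 2 f := by
    intro k c hc
    unfold mo
    rw [abs_div, abs_of_pos (by norm_num : (0 : ℝ) < 4), ← mul_div_assoc, Finset.mul_sum]
    refine div_le_div_of_nonneg_right ((Finset.abs_sum_le_sum_abs _ _).trans
      (Finset.sum_le_sum fun i _ => ?_)) (by norm_num)
    rw [pow_add, abs_mul, abs_pow, abs_of_nonneg (sq_nonneg (f i - 1))]
    exact mul_le_mul_of_nonneg_right (hc i) (sq_nonneg _)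
  have h9 : mo 2 f ≤ 9 := by
    unfold mo
    rw [Fin.sum_univ_four]
    linarith [h2 0, h2 1, h2 2, h2 3]
  refine ⟨h4, hR, by rw [abs_of_nonneg hR, one_mul], hk 1 3 fun i => by simpa using h1 i,
    hk 2 9 fun i => by rw [sq_abs]; exact h2 i, ?_⟩
  rw [abs_of_nonneg (sq_nonneg _)]
  nlinarith

theorem mul_bd {a b α β x y : ℝ} (ha : |a| ≤ α * x) (hb : |b| ≤ β * y) :
    -(α * β * (x * y)) ≤ a * b ∧ a * b ≤ α * β * (x * y) := by
  rw [← abs_le, abs_mul]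
  refine (mul_le_mul ha hb (abs_nonneg _) ((abs_nonneg _).trans ha)).trans (le_of_eq ?_)
  ring

theorem mean_one {f : Fin 4 → ℝ} (hf : ∑ i, f i = 4) : mean f = 1 := by
  rw [mean, hf]
  norm_num

theorem chi_mo {f : Fin 4 → ℝ} (hf : ∑ i, f i = 4) : chi f = mo 2 f / 3 := by
  unfold chi mo
  rw [hf]
  rw [Fin.sum_univ_four] at hf
  have h3 : f 3 = 4 - f 0 - f 1 - f 2 := by linarith
  simp only [Fin.sum_univ_four, h3]
  push_cast
  ring

theorem th_mo {f : Fin 4 → ℝ} (hf : ∑ i, f i = 4) : th f = mo 3 f := by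
  rw [th, mean_one hf, mo, one_pow, div_one]

theorem th_hom (c : ℝ) (hc : 0 < c) (v : Fin 4 → ℝ) : th (fun i => c * v i) = c * th v := by
  unfold th
  rw [mean_hom]
  simp only [← mul_sub, mul_pow, ← Finset.mul_sum]
  by_cases h : mean v = 0
  · simp [h]
  · field_simp

theorem norm4 {v : Fin 4 → ℝ} (hs : 0 < ∑ i, v i) :
    ∃ f : Fin 4 → ℝ, ∑ i, f i = 4 ∧ v = fun i => mean v * f i := by
  have hm := mean_pos (by norm_num) hs
  refine ⟨fun i => v i / mean v, ?_, funext fun i => by field_simp⟩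
  rw [← Finset.sum_div, mean]
  push_cast
  field_simp

theorem pA_le {p : Fin 4 → ℝ} (hp : ∀ i, 0 < p i) : pA p / 3 ≤ chi p := by
  have hs : 0 < ∑ i, p i := Finset.sum_pos (fun i _ => hp i) Finset.univ_nonempty
  have hm := mean_pos (by norm_num) hs
  have h0 := chi_nonneg (by norm_num) hs
  have e : pA p / 3 = chi p - chi p * (1 - mean p) ^ 2 := by
    unfold pA chi mean
    push_cast
    field_simp
    ring
  rw [e]
  exact sub_le_self _ (by positivity)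

theorem avg_mono {F G : (Fin 4 → ℝ) → ℝ} {f g : Fin 4 → ℝ} {c : ℝ}
    (h : ∀ τ : Equiv.Perm (Fin 4), F (fun i => f i * g (τ i)) ≤ G (fun i => f i * g (τ i)) + c) :
    avgPerm F f g ≤ avgPerm G f g + c := by
  have h1 := Finset.sum_le_sum fun τ (_ : τ ∈ Finset.univ) => h τ
  rw [Finset.sum_add_distrib, Finset.sum_const, Finset.card_univ, Fintype.card_perm,
    Fintype.card_fin, nsmul_eq_mul, fact4] at h1
  unfold avgPerm
  rw [fact4]
  linarith

theorem th_pB {f g : Fin 4 → ℝ} {μ : ℝ} (hμ : 0 < μ) (pf : ∀ i, 0 < f i) (pg : ∀ i, 0 < g i)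
    (hf : ∑ i, f i = 4) (hg : ∑ i, g i = 4) (hl : ∀ i, μ ≤ f i) :
    |th (fun i => f i * g i) - pB fun i => f i * g i| ≤ 36864 / μ ^ 2 * (mo 2 f * mo 2 g) := by
  have f4 := (mo_bd (fun i => (pf i).le) hf).1
  have g4 := (mo_bd (fun i => (pg i).le) hg).1
  obtain ⟨Z, hZ⟩ : ∃ Z, Z = mean fun i => f i * g i := ⟨_, rfl⟩
  have hZ4 : Z = (∑ i, f i * g i) / 4 := by rw [hZ, mean]; norm_num
  have z1 : μ ≤ Z := by
    have : ∑ i, μ * g i ≤ ∑ i, f i * g i :=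
      Finset.sum_le_sum fun i _ => mul_le_mul_of_nonneg_right (hl i) (pg i).le
    rw [← Finset.mul_sum, hg] at this
    linarith
  have z2 : Z ≤ 4 := by
    have : ∑ i, f i * g i ≤ ∑ i, 4 * g i :=
      Finset.sum_le_sum fun i _ => mul_le_mul_of_nonneg_right (f4 i) (pg i).le
    rw [← Finset.mul_sum, hg] at this
    linarith
  have z0 : 0 < Z := hμ.trans_le z1
  have z3 : (Z - 1) ^ 2 ≤ mo 2 f * mo 2 g := by
    have h1 := Finset.sum_mul_sq_le_sq_mul_sq Finset.univ (fun i => f i - 1) fun i => g i - 1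
    have h2 : ∑ i, (f i - 1) * (g i - 1) = 4 * (Z - 1) := by
      rw [Fin.sum_univ_four] at hf hg hZ4 ⊢
      linarith
    rw [h2] at h1
    unfold mo
    linarith
  obtain ⟨D, hD⟩ : ∃ D, D = (∑ i, (f i * g i - Z) ^ 3) / 4 := ⟨_, rfl⟩
  have d1 : |D| ≤ 4096 := by
    have h1 : ∀ i, |(f i * g i - Z) ^ 3| ≤ 4096 := fun i => by
      have h2 := mul_pos (pf i) (pg i)
      have h3 := mul_le_mul (f4 i) (g4 i) (pg i).le (by norm_num)
      have h4 : |f i * g i - Z| ≤ 16 := abs_le.2 ⟨by linarith, by linarith⟩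
      rw [abs_pow]
      exact (pow_le_pow_left₀ (abs_nonneg _) h4 3).trans (by norm_num)
    have h5 := (Finset.abs_sum_le_sum_abs _ _).trans
      (Finset.sum_le_sum fun i (_ : i ∈ Finset.univ) => h1 i)
    rw [hD, abs_div, abs_of_pos (by norm_num : (0 : ℝ) < 4)]
    simp only [Finset.sum_const, Finset.card_univ, Fintype.card_fin, nsmul_eq_mul] at h5
    push_cast at h5
    linarith
  have e : th (fun i => f i * g i) - pB (fun i => f i * g i) =
      D * ((2 * Z + 1) / Z ^ 2 * (Z - 1) ^ 2) := by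
    rw [th, pB, ← hZ, ← hD]
    field_simp
    ring
  rw [e, abs_mul, abs_of_nonneg (by positivity : 0 ≤ (2 * Z + 1) / Z ^ 2 * (Z - 1) ^ 2)]
  have h6 : (2 * Z + 1) / Z ^ 2 ≤ 9 / μ ^ 2 := by
    gcongr
    linarith
  calc _ ≤ 4096 * (9 / μ ^ 2 * (mo 2 f * mo 2 g)) := by gcongr
    _ = _ := by ring

theorem isLow4 {μ : ℝ} (hμ : 0 < μ) : IsLow 4 th μ 0 (9 * (400 + 36864 / μ ^ 2)) where
  c0 := le_rfl
  c2 := by positivity
  th_pl := fun s v => by
    have e : ∀ i, pl s v i - mean v = s * (v i - mean v) := fun i => by rw [pl]; ring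
    rw [th, th, mean_pl (by norm_num)]
    simp only [e, mul_pow, ← Finset.mul_sum]
    ring
  th_one := by simp [th, mean]
  th_le := fun v hv hs => by
    have hm := mean_pos (by norm_num) hs
    obtain ⟨f, hf, e⟩ := norm4 hs
    have h0 : ∀ i, 0 ≤ f i := fun i => by
      have := hv i
      rw [e] at this
      exact (mul_nonneg_iff_of_pos_left hm).1 this
    have h1 := (mo_bd h0 hf).2.2.2.1
    generalize mean v = m at *
    rw [e, th_hom m hm, chi_hom m hm, th_mo hf, chi_mo hf, abs_mul, abs_of_pos hm]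
    nlinarith
  pair1 := fun v w hv hw => by
    have hs : 0 < ∑ i, v i := Finset.sum_pos (fun i _ => hv i) Finset.univ_nonempty
    have ht : 0 < ∑ i, w i := Finset.sum_pos (fun i _ => hw i) Finset.univ_nonempty
    have hm := mean_pos (by norm_num) hs
    have hn := mean_pos (by norm_num) ht
    obtain ⟨f, hf, e⟩ := norm4 hs
    obtain ⟨g, hg, e'⟩ := norm4 ht
    generalize mean v = m at *
    generalize mean w = n at *
    subst e e'
    have pf : ∀ i, 0 < f i := fun i => (mul_pos_iff_of_pos_left hm).1 (hv i)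
    have pg : ∀ i, 0 < g i := fun i => (mul_pos_iff_of_pos_left hn).1 (hw i)
    have h1 : avgPerm (fun p => pA p / 3) f g ≤ avgPerm chi f g + 0 :=
      avg_mono fun τ => by rw [add_zero]; exact pA_le fun i => mul_pos (pf i) (pg _)
    have h2 : avgPerm (fun p => pA p / 3) f g = avgPerm pA f g / 3 := by
      simp only [avgPerm, ← Finset.sum_div]
      ring
    rw [h2, avg_pA hf hg] at h1
    rw [avgPerm_hom chi chi_hom m n hm hn, th_hom m hm, th_hom n hn, chi_hom m hm, chi_hom n hn,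
      th_mo hf, th_mo hg, chi_mo hf, chi_mo hg]
    nlinarith only [mul_le_mul_of_nonneg_left h1 (mul_pos hm hn).le]
  pair2 := fun v w hv hw hl => by
    have hs : 0 < ∑ i, v i := Finset.sum_pos (fun i _ => hv i) Finset.univ_nonempty
    have ht : 0 < ∑ i, w i := Finset.sum_pos (fun i _ => hw i) Finset.univ_nonempty
    have hm := mean_pos (by norm_num) hs
    have hn := mean_pos (by norm_num) ht
    obtain ⟨f, hf, e⟩ := norm4 hs
    obtain ⟨g, hg, e'⟩ := norm4 ht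
    generalize mean v = m at *
    generalize mean w = n at *
    subst e e'
    have pf : ∀ i, 0 < f i := fun i => (mul_pos_iff_of_pos_left hm).1 (hv i)
    have pg : ∀ i, 0 < g i := fun i => (mul_pos_iff_of_pos_left hn).1 (hw i)
    have lf : ∀ i, μ ≤ f i := fun i => le_of_mul_le_mul_left (by linarith [hl i]) hm
    have h0 : ∀ τ : Equiv.Perm (Fin 4), |th (fun i => f i * g (τ i)) - pB fun i => f i * g (τ i)|
        ≤ 36864 / μ ^ 2 * (mo 2 f * mo 2 g) := fun τ => by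
      have h1 := th_pB (g := fun i => g (τ i)) hμ pf (fun i => pg _) hf
        ((Equiv.sum_comp τ g).trans hg) lf
      rwa [show mo 2 (fun i => g (τ i)) = mo 2 g from
        congrArg (· / 4) (Equiv.sum_comp τ fun i => (g i - 1) ^ 2)] at h1
    have h1 := avg_mono (F := th) (G := pB) fun τ => sub_le_iff_le_add'.1 (abs_le.1 (h0 τ)).2
    have h2 := avg_mono (F := pB) (G := th) fun τ =>
      sub_le_iff_le_add'.1 (abs_le.1 ((abs_sub_comm _ _).trans_le (h0 τ))).2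
    rw [avg_pB hf hg] at h1 h2
    obtain ⟨-, a0, a1, a2, a3, a4⟩ := mo_bd (fun i => (pf i).le) hf
    obtain ⟨-, b0, b1, b2, b3, b4⟩ := mo_bd (fun i => (pg i).le) hg
    have h3 : |avgPerm th f g - (mo 3 f + mo 3 g)| ≤ (400 + 36864 / μ ^ 2) * (mo 2 f * mo 2 g) := by
      have hP := mul_nonneg a0 b0
      rw [abs_le, add_mul]
      constructor <;>
        linarith only [h1, h2, hP, mul_bd a1 b2, mul_bd a2 b1, mul_bd a1 b3, mul_bd a3 b1,
          mul_bd a1 b4, mul_bd a4 b1, mul_bd a2 b2, mul_bd a2 b4, mul_bd a4 b2, mul_bd a3 b3,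
          mul_bd a3 b4, mul_bd a4 b3, mul_bd a4 b4]
    rw [avgPerm_hom th th_hom m n hm hn, th_hom m hm, th_hom n hn, chi_hom m hm, chi_hom n hn,
      th_mo hf, th_mo hg, chi_mo hf, chi_mo hg,
      show m * n * avgPerm th f g - (m * mo 3 f * n + m * (n * mo 3 g)) =
        m * n * (avgPerm th f g - (mo 3 f + mo 3 g)) by ring, abs_mul,
      abs_of_pos (mul_pos hm hn)]
    refine (mul_le_mul_of_nonneg_left h3 (mul_pos hm hn).le).trans (le_of_eq ?_)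
    ring

end Q4

end Vale.Agent.N154
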