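import Vale.Agent.N154.Lev
import Vale.Agent.P154.Bdl.B6

/-!
# P154: reconstruction forces a flow of finite energy
-/

namespace Vale.Agent.N154

open Vale.Agent.P154 Vale.Agent.P154B7

section Q3

open Vale.Agent.P154.Q3

theorem pairQ_norm {a0 a1 a2 b0 b1 b2 : ℝ} (ha0 : 0 < a0) (ha1 : 0 < a1) (ha2 : 0 < a2)
    (hb0 : 0 < b0) (hb1 : 0 < b1) (hb2 : 0 < b2) (hsa : a0+a1+a2 = 3) (hsb : b0+b1+b2 = 3) :
    (ch (a0*b0) (a1*b1) (a2*b2) + ch (a0*b1) (a1*b2) (a2*b0) + ch (a0*b2) (a1*b0) (a2*b1)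
      + ch (a0*b0) (a1*b2) (a2*b1) + ch (a0*b2) (a1*b1) (a2*b0) + ch (a0*b1) (a1*b0) (a2*b2))/6
    + 13/144*((a0*a1+a1*a2+a2*a0)/3 - a0*a1*a2) * fx b0 b1 b2
    + 13/144*((b0*b1+b1*b2+b2*b0)/3 - b0*b1*b2) * fx a0 a1 a2
    + 1/48*(fx a0 a1 a2 * fx b0 b1 b2)
    + 1/40*(ch a0 a1 a2 * ch b0 b1 b2)
      ≤ ch a0 a1 a2 + ch b0 b1 b2 := by
  obtain ⟨x, s, p, hx, hsd, hp, hp3, hx0, hx1, hsx, hp0, hP, hN⟩ := chan ha0.le ha1.le ha2.le hsa
  obtain ⟨y, v, q, hy, hvd, hq, hq3, hy0, hy1, hvy, hq0, hQ, hM⟩ := chan hb0.le hb1.le hb2.le hsb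
  have hx1' : x < 1 := by
    have : 0 < a0*a1+a1*a2+a2*a0 := by positivity
    linarith only [hx, this]
  have hy1' : y < 1 := by
    have : 0 < b0*b1+b1*b2+b2*b0 := by positivity
    linarith only [hy, this]
  have eX : (a0*a1+a1*a2+a2*a0)/3 = 1 - x := by rw [hx]; ring
  have eY : (b0*b1+b1*b2+b2*b0)/3 = 1 - y := by rw [hy]; ring
  have ex : ch a0 a1 a2 = x := by unfold ch; rw [hsa, hx]; ring
  have ey : ch b0 b1 b2 = y := by unfold ch; rw [hsb, hy]; ring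
  rw [eX, eY, ex, ey, fx_norm hsa hx hp hp3, fx_norm hsb hy hq hq3, ← hp3, ← hq3]
  have hcore := coreB hx0 hx1' hsx hp0 hP hy0 hy1' hvy hq0 hQ
  have hlow := avg_low a0 a1 a2 b0 b1 b2 (by linarith only [hsa]) (by linarith only [hsb])
    x s y v hx hsd hy hvd
  have hZ := sum_Z a0 a1 a2 b0 b1 b2 hsa hsb
  have l1 := ch_up (mul_pos ha0 hb0) (mul_pos ha1 hb1) (mul_pos ha2 hb2)
  have l2 := ch_up (mul_pos ha0 hb1) (mul_pos ha1 hb2) (mul_pos ha2 hb0)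
  have l3 := ch_up (mul_pos ha0 hb2) (mul_pos ha1 hb0) (mul_pos ha2 hb1)
  have l4 := ch_up (mul_pos ha0 hb0) (mul_pos ha1 hb2) (mul_pos ha2 hb1)
  have l5 := ch_up (mul_pos ha0 hb2) (mul_pos ha1 hb1) (mul_pos ha2 hb0)
  have l6 := ch_up (mul_pos ha0 hb1) (mul_pos ha1 hb0) (mul_pos ha2 hb2)
  generalize ch (a0*b0) (a1*b1) (a2*b2) = f1 at *
  generalize ch (a0*b1) (a1*b2) (a2*b0) = f2 at *
  generalize ch (a0*b2) (a1*b0) (a2*b1) = f3 at *
  generalize ch (a0*b0) (a1*b2) (a2*b1) = f4 at *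
  generalize ch (a0*b2) (a1*b1) (a2*b0) = f5 at *
  generalize ch (a0*b1) (a1*b0) (a2*b2) = f6 at *
  generalize lowA (a0*b0) (a1*b1) (a2*b2) = g1 at *
  generalize lowA (a0*b1) (a1*b2) (a2*b0) = g2 at *
  generalize lowA (a0*b2) (a1*b0) (a2*b1) = g3 at *
  generalize lowA (a0*b0) (a1*b2) (a2*b1) = g4 at *
  generalize lowA (a0*b2) (a1*b1) (a2*b0) = g5 at *
  generalize lowA (a0*b1) (a1*b0) (a2*b2) = g6 at *
  generalize (a0*b0+a1*b1+a2*b2)/3 = z1 at *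
  generalize (a0*b1+a1*b2+a2*b0)/3 = z2 at *
  generalize (a0*b2+a1*b0+a2*b1)/3 = z3 at *
  generalize (a0*b0+a1*b2+a2*b1)/3 = z4 at *
  generalize (a0*b2+a1*b1+a2*b0)/3 = z5 at *
  generalize (a0*b1+a1*b0+a2*b2)/3 = z6 at *
  linarith only [hcore, hlow, l1, l2, l3, l4, l5, l6, hZ]

theorem pairQ (v w : Fin 3 → ℝ) (hv : ∀ i, 0 < v i) (hw : ∀ i, 0 < w i) :
    avgPerm chi v w + G3f v * FX3 w + G3f w * FX3 v + 1/48 * (FX3 v * FX3 w)
      + 1/40 * (chi v * chi w) ≤ chi v * mean w + mean v * chi w := by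
  have hsv : 0 < ∑ i, v i := Finset.sum_pos (fun i _ => hv i) Finset.univ_nonempty
  have hsw : 0 < ∑ i, w i := Finset.sum_pos (fun i _ => hw i) Finset.univ_nonempty
  have hchi : avgPerm chi v w = avgPerm (fun u => ch (u 0) (u 1) (u 2)) v w := by
    unfold avgPerm
    congr 1
    apply Finset.sum_congr rfl
    intro τ _
    exact chi_eq _ (Finset.sum_pos (fun i _ => mul_pos (hv i) (hw _)) Finset.univ_nonempty)
  rw [hchi, chi_eq v hsv, chi_eq w hsw, mean_eq, mean_eq, avgPerm3]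
  obtain ⟨m, a0, a1, a2, hm, -, -, -, hpos, hsa, e0, e1, e2⟩ :=
    scaled v (fun i => (hv i).le) hsv
  obtain ⟨h0, h1, h2⟩ := hpos hv
  obtain ⟨n, b0, b1, b2, hn, -, -, -, hpos', hsb, f0, f1, f2⟩ :=
    scaled w (fun i => (hw i).le) hsw
  obtain ⟨k0, k1, k2⟩ := hpos' hw
  have key := pairQ_norm h0 h1 h2 k0 k1 k2 hsa hsb
  unfold FX3 G3f
  simp only [Matrix.cons_val_zero, Matrix.cons_val_one, Matrix.cons_val]
  rw [e0, e1, e2, f0, f1, f2]
  rw [ch_pair hm hn h0 h1 h2 k0 k1 k2, ch_pair hm hn h0 h1 h2 k1 k2 k0,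
    ch_pair hm hn h0 h1 h2 k2 k0 k1, ch_pair hm hn h0 h1 h2 k0 k2 k1,
    ch_pair hm hn h0 h1 h2 k2 k1 k0, ch_pair hm hn h0 h1 h2 k1 k0 k2,
    fx_smul hm h0.le h1.le h2.le (by positivity), fx_smul hn k0.le k1.le k2.le (by positivity),
    ch_smul hm (by positivity), ch_smul hn (by positivity)]
  have s1 : m*a0+m*a1+m*a2 = m*3 := by rw [← hsa]; ring
  have s2 : n*b0+n*b1+n*b2 = n*3 := by rw [← hsb]; ring
  have g1 : 13/144*((m*a0*(m*a1)+m*a1*(m*a2)+m*a2*(m*a0))/(3*((m*a0+m*a1+m*a2)/3))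
        - m*a0*(m*a1)*(m*a2)/((m*a0+m*a1+m*a2)/3)^2)
      = m*(13/144*((a0*a1+a1*a2+a2*a0)/3 - a0*a1*a2)) := by
    rw [s1]; (clear * - hm; field_simp)
  have g2 : 13/144*((n*b0*(n*b1)+n*b1*(n*b2)+n*b2*(n*b0))/(3*((n*b0+n*b1+n*b2)/3))
        - n*b0*(n*b1)*(n*b2)/((n*b0+n*b1+n*b2)/3)^2)
      = n*(13/144*((b0*b1+b1*b2+b2*b0)/3 - b0*b1*b2)) := by
    rw [s2]; (clear * - hn; field_simp)
  rw [g1, g2, s1, s2]
  have := mul_le_mul_of_nonneg_left key (by positivity : 0 ≤ m*n)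
  refine le_trans (le_of_eq ?_) (this.trans (le_of_eq ?_)) <;> ring

end Q3

variable {q : ℕ} {FX K G : (Fin q → ℝ) → ℝ} {γX γA δ : ℝ}

theorem sum_pair {I J : Type} [Fintype I] [Fintype J] (M : I → Fin q → ℝ) (N : J → Fin q → ℝ)
    (A B : (Fin q → ℝ) → ℝ) :
    ∑ η, ∑ ζ, A (M η) * B (N ζ) = (∑ η, A (M η)) * ∑ ζ, B (N ζ) :=
  (Finset.sum_mul_sum _ _ _ _).symm

theorem avg_sum {I J : Type} [Fintype I] [Fintype J] {M : I → Fin q → ℝ} {N : J → Fin q → ℝ}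
    (hN : Good FX N) (F : (Fin q → ℝ) → ℝ) :
    ∑ η, ∑ ζ, avgPerm F (M η) (N ζ) = ∑ p : I × J, F fun i => M p.1 i * N p.2 i := by
  rw [avgPerm_sum M N hN.sym F, Fintype.sum_prod_type]

theorem val_prodQ {I J : Type} [Fintype I] [Fintype J]
    {M : I → Fin 3 → ℝ} {N : J → Fin 3 → ℝ} (hM : Good Q3.FX3 M) (hN : Good Q3.FX3 N)
    (pM : ∀ η i, 0 < M η i) (pN : ∀ η i, 0 < N η i) :
    val (fun (p : I × J) i => M p.1 i * N p.2 i) + 1 / 40 * (val M * val N) ≤ val M + val N := by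
  have h := Finset.sum_le_sum fun η (_ : η ∈ Finset.univ) => Finset.sum_le_sum
    fun ζ (_ : ζ ∈ Finset.univ) => pairQ _ _ (pM η) (pN ζ)
  simp only [Finset.sum_add_distrib, ← Finset.mul_sum, mul_comm (Q3.G3f (N _))] at h
  simp only [← Finset.sum_mul] at h
  rw [avg_sum hN, sum_mean_eq_one (by norm_num) hM, sum_mean_eq_one (by norm_num) hN] at h
  have g1 : 0 ≤ ∑ η, Q3.G3f (M η) := Finset.sum_nonneg fun η _ => Q3.isCert3.G_nonneg _ (pM η)
  have g2 : 0 ≤ ∑ η, Q3.G3f (N η) := Finset.sum_nonneg fun η _ => Q3.isCert3.G_nonneg _ (pN η)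
  have p1 := mul_nonneg g1 hN.cls
  have p2 := mul_nonneg hM.cls g2
  have p3 := mul_nonneg hM.cls hN.cls
  unfold val
  linarith

theorem sum_fin_zero (I : Fin 0 → Type) [∀ c, Fintype (I c)]
    (M : (c : Fin 0) → I c → Fin q → ℝ) (F : (Fin q → ℝ) → ℝ) :
    ∑ η : (c : Fin 0) → I c, F (fun i => ∏ c, M c (η c) i) = F fun _ => 1 := by
  simp

theorem sum_fin_succ {k : ℕ} (I : Fin (k + 1) → Type) [∀ c, Fintype (I c)]
    (M : (c : Fin (k + 1)) → I c → Fin q → ℝ) (F : (Fin q → ℝ) → ℝ) :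
    ∑ η : (c : Fin (k + 1)) → I c, F (fun i => ∏ c, M c (η c) i) =
      ∑ p : I 0 × ((c : Fin k) → I c.succ), F fun i => M 0 p.1 i * ∏ c, M c.succ (p.2 c) i := by
  refine Fintype.sum_equiv (Fin.consEquiv I).symm _ _ fun η => ?_
  congr 1
  funext i
  rw [Fin.prod_univ_succ]
  rfl

/-- the quadratic transform -/
noncomputable def tq (x : ℝ) : ℝ := x + 1 / 80 * x ^ 2

theorem fin_prodQ : ∀ (k : ℕ) (I : Fin k → Type) [∀ c, Fintype (I c)]
    (M : (c : Fin k) → I c → Fin 3 → ℝ), (∀ c, Good Q3.FX3 (M c)) → (∀ c η i, 0 < M c η i) →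
    tq (val fun (η : (c : Fin k) → I c) i => ∏ c, M c (η c) i) ≤ ∑ c, tq (val (M c))
  | 0, I, _, M, _, _ => by
    rw [val, sum_fin_zero, chi_const (by norm_num)]
    simp [tq]
  | k + 1, I, _, M, hM, pM => by
    have ih := fin_prodQ k (fun c => I c.succ) (fun c => M c.succ) (fun c => hM c.succ)
      fun c => pM c.succ
    have hg := (good_fin_prod Q3.isCert3 (by norm_num) k (fun c => I c.succ) (fun c => M c.succ)
      (fun c => hM c.succ) fun c => pM c.succ).1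
    have pr : ∀ (η : (c : Fin k) → I c.succ) i, 0 < ∏ c, M c.succ (η c) i := fun η i =>
      Finset.prod_pos fun c _ => pM _ _ _
    have hv := val_prodQ (hM 0) hg (pM 0) pr
    have h0 := val_nonneg (by norm_num) (good_prod Q3.isCert3 (hM 0) hg (pM 0) pr
      (by norm_num)).mpos
    have h1 := val_nonneg (by norm_num) (hM 0).mpos
    have h2 := val_nonneg (by norm_num) hg.mpos
    rw [val, sum_fin_succ, Fin.sum_univ_succ]
    refine le_trans ?_ (add_le_add le_rfl ih)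
    change tq (val fun (p : I 0 × ((c : Fin k) → I c.succ)) i =>
      M 0 p.1 i * ∏ c, M c.succ (p.2 c) i) ≤ _
    generalize val (fun (p : I 0 × ((c : Fin k) → I c.succ)) i =>
      M 0 p.1 i * ∏ c, M c.succ (p.2 c) i) = z at *
    generalize val (fun (η : (c : Fin k) → I c.succ) i => ∏ c, M c.succ (η c) i) = y at *
    generalize val (M 0) = x at *
    have h3 : z ≤ x + y := by nlinarith [mul_nonneg h1 h2]
    have h4 : z ^ 2 ≤ (x + y) ^ 2 := pow_le_pow_left₀ h0 h3 2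
    unfold tq
    nlinarith

theorem tval_succQ {lam : ℝ} (h0 : 0 ≤ lam) (h1 : lam < 1) (n k : ℕ)
    (t : Fin k → P154.Tree n) :
    tq (tval 3 lam (n + 1) ⟨k, t⟩) ≤ ∑ c, tq (lam ^ 2 * tval 3 lam n (t c)) := by
  have hq : 2 ≤ 3 := by norm_num
  have ih := fun c => good_edge Q3.isCert3 hq h0 h1 (good_tree Q3.isCert3 hq h0 h1 n (t c))
  have h := fin_prodQ k (fun c => Spins 3 n (t c))
    (fun c η => pl lam (fun i => lik 3 lam n (t c) i η)) (fun c => (ih c).1) fun c => (ih c).2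
  have e : tval 3 lam (n + 1) ⟨k, t⟩ =
      val (fun (η : (c : Fin k) → Spins 3 n (t c)) i => ∏ c, pl lam
        (fun i => lik 3 lam n (t c) i (η c)) i) := by
    unfold tval
    congr 1
    funext η i
    show ∏ c : Fin k, ∑ j : Fin 3, potts 3 lam i j * lik 3 lam n (t c) j (η c) = _
    exact Finset.prod_congr rfl fun c _ => edge_eq lam hq i _
  rw [e]
  refine h.trans (le_of_eq (Finset.sum_congr rfl fun c _ => ?_))
  congr 1
  exact val_edge hq lam (good_tree Q3.isCert3 hq h0 h1 n (t c)).mpos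

theorem posCap_of_sub (hC : IsCert q FX K G γX γA δ) (hq : 2 ≤ q) {lam d a : ℝ} (h0 : 0 < lam)
    (h1 : lam < 1) (hd : 0 < d) (hd1 : d ≤ 1) (ha : 0 < a) (s : ℕ) {κ : List ℕ → ℕ}
    (hsub : ∀ n k (t : Fin k → P154.Tree n), tval q lam (n + 1) ⟨k, t⟩ +
      d * tval q lam (n + 1) ⟨k, t⟩ ^ (s + 2) ≤
      ∑ c, (lam ^ 2 * tval q lam n (t c) + d * (lam ^ 2 * tval q lam n (t c)) ^ (s + 2)))
    (hlow : ∀ n, a ≤ tval q lam n (cut κ n [])) : PosCap κ lam (s + 1) := by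
  have hl2 : lam ^ 2 < 1 := pow_lt_one₀ h0.le h1 two_ne_zero
  have hl3 : 0 < 1 - lam ^ 2 := by linarith
  have x0 := fun n u => tval_nonneg hC hq h0.le h1 n (cut κ n u)
  have x1 := fun n u => tval_le_one hC hq h0.le h1 n (cut κ n u)
  have y2 : ∀ x : ℝ, 0 ≤ x → x ≤ 1 → x + d * x ^ (s + 2) ≤ 2 * x := fun x hx hx1 => by
    have h2 : x ^ (s + 2) ≤ x := pow_le_of_le_one hx hx1 (by omega)
    nlinarith [pow_nonneg hx (s + 2)]
  refine posCap_of_rec (k := d * (1 - lam ^ 2) / 2 ^ (s + 2)) h0 (by positivity) ha s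
    (fun n u => tval q lam n (cut κ n u) + d * tval q lam n (cut κ n u) ^ (s + 2))
    (fun n v => ⟨by have := x0 n v; positivity, ?_⟩) (fun n => ?_) fun n u => ?_
  · have h2 : tval q lam n (cut κ n v) + d * tval q lam n (cut κ n v) ^ (s + 2) ≤ 2 := by
      linarith [y2 _ (x0 n v) (x1 n v), x1 n v]
    have h3 := pow_le_pow_left₀ (by have := x0 n v; positivity) h2 (s + 1)
    rw [div_mul_eq_mul_div, div_le_one (by positivity), pow_succ 2 (s + 1)]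
    have h4 : d * (1 - lam ^ 2) ≤ 1 := by nlinarith [sq_nonneg lam]
    have h5 := mul_le_mul h4 h3 (by have := x0 n v; positivity) zero_le_one
    have h6 : (0 : ℝ) < 2 ^ (s + 1) := by positivity
    linarith
  · have := x0 n []
    have h2 : 0 ≤ d * tval q lam n (cut κ n []) ^ (s + 2) := by positivity
    linarith [hlow n]
  · refine (hsub n (κ u) fun c => cut κ n (c :: u)).trans ?_
    rw [Finset.mul_sum, Finset.sum_range fun c => lam ^ 2 * ((tval q lam n (cut κ n (c :: u)) +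
      d * tval q lam n (cut κ n (c :: u)) ^ (s + 2)) * (1 - d * (1 - lam ^ 2) / 2 ^ (s + 2) *
      (tval q lam n (cut κ n (c :: u)) + d * tval q lam n (cut κ n (c :: u)) ^ (s + 2)) ^ (s + 1)))]
    refine Finset.sum_le_sum fun c _ => ?_
    have hx := x0 n (c :: u)
    have h2 := y2 _ hx (x1 n (c :: u))
    generalize tval q lam n (cut κ n ((c : ℕ) :: u)) = x at *
    have h3 : (x + d * x ^ (s + 2)) ^ (s + 2) ≤ 2 ^ (s + 2) * x ^ (s + 2) := by
      rw [← mul_pow]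
      exact pow_le_pow_left₀ (by positivity) h2 _
    have h4 : (lam ^ 2) ^ (s + 2) ≤ (lam ^ 2) ^ 2 :=
      pow_le_pow_of_le_one (by positivity) hl2.le (by omega)
    have h5 : d * (1 - lam ^ 2) / 2 ^ (s + 2) * (x + d * x ^ (s + 2)) ^ (s + 2) ≤
        d * (1 - lam ^ 2) * x ^ (s + 2) := by
      refine (mul_le_mul_of_nonneg_left h3 (by positivity)).trans (le_of_eq ?_)
      field_simp
    have h6 : d * ((lam ^ 2) ^ (s + 2) * x ^ (s + 2)) ≤ d * ((lam ^ 2) ^ 2 * x ^ (s + 2)) := by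
      gcongr
    have h7 := mul_le_mul_of_nonneg_left h5 (sq_nonneg lam)
    rw [mul_pow]
    have e : lam ^ 2 * ((x + d * x ^ (s + 2)) * (1 - d * (1 - lam ^ 2) / 2 ^ (s + 2) *
        (x + d * x ^ (s + 2)) ^ (s + 1))) = lam ^ 2 * (x + d * x ^ (s + 2)) -
        lam ^ 2 * (d * (1 - lam ^ 2) / 2 ^ (s + 2) * (x + d * x ^ (s + 2)) ^ (s + 2)) := by
      rw [pow_succ (x + d * x ^ (s + 2)) (s + 1)]
      ring
    rw [e]
    nlinarith

theorem potts_nn {lam : ℝ} (h0 : 0 ≤ lam) (h1 : lam ≤ 1) (i j : Fin q) : 0 ≤ potts q lam i j := by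
  unfold potts
  have : 0 ≤ (1 - lam) / q := div_nonneg (by linarith) (Nat.cast_nonneg _)
  split_ifs <;> linarith

/-- **Reconstruction forces positive capacity.** -/
theorem posCap_of_adv (hq : q = 3 ∨ q = 4) {lam l : ℝ} (h0 : 0 < lam) (h1 : lam < 1) (hl : 0 < l)
    {κ : List ℕ → ℕ} (h : ∀ n, l ≤ tadv q lam n (cut κ n [])) : PosCap κ lam (q - 2) := by
  have hq2 : 2 ≤ q := by omega
  have hq' : (2 : ℝ) ≤ q := by exact_mod_cast hq2
  have hlow : ∀ n, 4 * (l / q) * l ≤ tval q lam n (cut κ n []) := fun n => by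
    have h2 := (h n).trans (tadv_le hq2 (potts_nn h0.le h1.le) n _ (ε := l / q) (by positivity))
    have e : (q : ℝ) * (l / q) / 2 = l / 2 := by field_simp
    rw [e, one_div_mul_eq_div, ← sub_le_iff_le_add', le_div_iff₀ (by positivity)] at h2
    linarith
  rcases hq with rfl | rfl
  · exact posCap_of_sub Q3.isCert3 hq2 h0 h1 (d := 1 / 80) (by norm_num) (by norm_num)
      (by positivity) 0 (tval_succQ h0.le h1) hlow
  · exact posCap_of_sub Q4.isCert4 hq2 h0 h1 (d := 9 / 1000 / 3) (by norm_num) (by norm_num)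
      (by positivity) 1 (tval_succ Q4.isCert4 hq2 h0.le h1) hlow

end Vale.Agent.N154
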